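import Vale.Agent.N139X.Defs
import Vale.Agent.N139.Cont
import Vale.Agent.P139L62.F2

/-! From functions on the torus and the Duhamel formula to Fourier coefficients. -/

open Set Filter Topology MeasureTheory Complex
open scoped NNReal ENNReal

namespace Vale.Agent.N139X

open Vale.Agent.P139 Vale.Agent.P139.A Vale.Agent.P139Z Vale.Agent.P139Z.Hk Vale.Agent.N139
open Vale.Agent.P139L (toL co eC ech pr co_eq toL_ae ae_of_summable ech_pr pr_quot series_NH nl_coef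
  continuous_NH)

variable {d k m : ℕ} {T : ℝ≥0∞}

instance : IsProbabilityMeasure (vol d) := Vale.Agent.P139L.volProb

instance : (vol d).IsOpenPosMeasure := Vale.Agent.P139L.volPos

theorem sq_eq (n : Lat d) : nsq n = sqNorm n := rfl

theorem co_toL (f : Fn d) : co (toL f) = hat f := funext fun n => by
  rw [co_eq]
  exact integral_congr_ae ((toL_ae f).mul EventuallyEq.rfl)

theorem hat_inj {f g : Fn d} (h : hat f = hat g) : f = g := by
  rw [← co_toL, ← co_toL] at h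
  exact ContinuousMap.toLp_injective (vol d) (Vale.Agent.P139L.co_ext h)

theorem int_ch {f : Tor d → ℂ} (hf : Integrable f (vol d)) (n : Lat d) :
    Integrable (fun x => f x * ch n x) (vol d) :=
  hf.mul_bdd (eC n).continuous.aestronglyMeasurable
    (Eventually.of_forall fun z => (Vale.Agent.P139L.norm_ech n z).le)

theorem int_fn (f : Fn d) : Integrable f (vol d) :=
  f.continuous.integrable_of_hasCompactSupport (HasCompactSupport.of_compactSpace _)

theorem hat_sub {f g : Tor d → ℂ} (hf : Integrable f (vol d)) (hg : Integrable g (vol d))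
    (n : Lat d) : hat (f - g) n = hat f n - hat g n := by
  unfold hat
  rw [← integral_sub (int_ch hf _) (int_ch hg _)]
  simp only [Pi.sub_apply, sub_mul]

theorem hat_add (f g : Fn d) (n : Lat d) : hat (f + g : Fn d) n = hat f n + hat g n := by
  unfold hat
  rw [← integral_add (int_ch (int_fn f) _) (int_ch (int_fn g) _)]
  simp only [ContinuousMap.add_apply, add_mul]

theorem exists_fn {c : Lat d → ℂ} (hc : Summable fun n => ‖c n‖) :
    ∃ f : Fn d, hat f = c ∧ ∀ z, HasSum (fun n => c n * ch n z) (f z) := by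
  obtain ⟨S, h1, h2⟩ := ae_of_summable hc
  exact ⟨S, co_toL S ▸ h1, h2⟩

theorem hat_of_hasSum {c : Lat d → ℂ} {f : Fn d} (h : ∀ z, HasSum (fun n => c n * ch n z) (f z)) :
    hat f = c := by
  rw [← co_toL]
  refine Vale.Agent.P139L.co_of_ae ?_
  filter_upwards [toL_ae f] with z hz
  exact hz ▸ h z

theorem series_hat {f : Fn d} (hf : Summable fun n => ‖hat f n‖) (y : Fin d → ℝ) :
    series (hat f) y = f (pr y) := by
  obtain ⟨S, h1, h2⟩ := exists_fn hf
  rw [← hat_inj h1, h1, ← (h2 (pr y)).tsum_eq]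
  exact tsum_congr fun n => by rw [← ech_pr]; rfl

theorem term_nonneg (s : ℝ) (a : Lat d → ℂ) (n : Lat d) : 0 ≤ (1 + nsq n) ^ s * ‖a n‖ ^ 2 := by
  have := sqNorm_nonneg n
  rw [sq_eq]
  positivity

theorem Hs_lt_top {s : ℝ} {f : Tor d → ℂ} :
    Hs s f < ⊤ ↔ Summable fun n => (1 + nsq n) ^ s * ‖hat f n‖ ^ 2 :=
  ⟨fun h => (ENNReal.summable_toReal h.ne).congr fun n =>
    ENNReal.toReal_ofReal (term_nonneg s _ n), fun h => h.tsum_ofReal_ne_top.lt_top⟩

theorem Hs_eq {s : ℝ} {f : Tor d → ℂ} (h : Summable fun n => (1 + nsq n) ^ s * ‖hat f n‖ ^ 2) :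
    Hs s f = ENNReal.ofReal (∑' n, (1 + nsq n) ^ s * ‖hat f n‖ ^ 2) :=
  (ENNReal.ofReal_tsum_of_nonneg (term_nonneg s _) h).symm

theorem mem_iff {f : Tor d → ℂ} : Hs k f < ⊤ ↔ MemSobolev k (hat f) := by
  simp only [Hs_lt_top, Real.rpow_natCast]
  rfl

theorem Hs_nat {f : Tor d → ℂ} (h : MemSobolev k (hat f)) :
    Hs k f = ENNReal.ofReal (sobolevSq k (hat f)) := by
  rw [Hs_eq (Hs_lt_top.1 (mem_iff.2 h))]
  simp only [Real.rpow_natCast]
  rfl

theorem mem_sub {a b : Lat d → ℂ} (ha : MemSobolev k a) (hb : MemSobolev k b) :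
    MemSobolev k fun n => a n - b n := by
  have h := mem_cf (k := k) (mkH a ha - mkH b hb)
  rwa [funext (cf_sub _ _), funext (cf_mkH a ha), funext (cf_mkH b hb)] at h

theorem hat_nl (hk : d < 2 * k) {f : Fn d} {x : HS d} (h : cf k x = hat f) :
    hat (fun z => (‖f z‖ : ℂ) ^ (2 * m + 1 - 1) * f z) = cf k (NH hk m x) := by
  have hs := fun y : HS d => Persist.summable_of_memSobolev hk (mem_cf (k := k) y)
  obtain ⟨S, h1, -⟩ := exists_fn (hs (NH hk m x))
  rw [← h1]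
  refine congrArg hat (funext fun z => ?_)
  obtain ⟨y, rfl⟩ := pr_quot.surjective z
  rw [← series_hat (h ▸ hs x), ← h, series_NH hk, ← h1, series_hat (h1 ▸ hs _)]

theorem exists_gt {c : ℝ} (hc : ENNReal.ofReal c < T) : ∃ b ∈ dom T, c < b := by
  obtain ⟨r, h0, h1, h2⟩ := ENNReal.lt_iff_exists_real_btwn.1 hc
  exact ⟨r, ⟨h0, h2⟩, (ENNReal.ofReal_lt_ofReal_iff'.1 h1).1⟩

theorem Icc_sub {b : ℝ} (hb : b ∈ dom T) : Icc 0 b ⊆ dom T :=
  fun _ ht => ⟨ht.1, (ENNReal.ofReal_le_ofReal ht.2).trans_lt hb.2⟩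

theorem cont_lift {b : ℝ} {a : ℝ → Lat d → ℂ} (hm : ∀ t ∈ Icc 0 b, MemSobolev k (a t))
    (hc : ∀ t ∈ Icc 0 b, Tendsto (fun r => sobolevSq k fun n => a r n - a t n) (𝓝[Icc 0 b] t)
      (𝓝 0)) : ContinuousOn (liftH k a) (Icc 0 b) := fun t ht => by
  rw [ContinuousWithinAt, tendsto_iff_norm_sub_tendsto_zero]
  have h1 := (hc t ht).sqrt
  rw [Real.sqrt_zero] at h1
  refine h1.congr' ?_
  filter_upwards [self_mem_nhdsWithin] with r hr
  rw [← Real.sqrt_sq (norm_nonneg _), ← sob_cf (k := k)]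
  simp only [funext (cf_sub _ _), cf_liftH (hm r hr), cf_liftH (hm t ht)]

theorem ph_eq (n : Lat d) (t r : ℝ) : exp (-I * nsq n * (t - r)) = ph t n * ph (-r) n := by
  rw [ph, ph, ← Complex.exp_add, sq_eq]
  congr 1
  push_cast
  ring

theorem ph_eq' (n : Lat d) (t : ℝ) : exp (-I * nsq n * t) = ph t n := by
  rw [ph, sq_eq]
  congr 1
  ring

theorem continuous_ph (n : Lat d) : Continuous fun r : ℝ => ph (-r) n := by
  unfold ph
  fun_prop

theorem Sol.modes (hk : d < 2 * k) {u : ℝ → Fn d} (h : Sol (2 * m + 1) k T u) {b : ℝ}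
    (hb : b ∈ dom T) : IsSolution d (2 * m + 1) k b fun t => hat (u t) := by
  have hs := Icc_sub hb
  have h1 : ∀ t ∈ Icc 0 b, MemSobolev k (hat (u t)) := fun t ht => mem_iff.1 (h.mem t (hs ht))
  have h2 : ∀ t ∈ Icc 0 b, Tendsto (fun r => sobolevSq k fun n => hat (u r) n - hat (u t) n)
      (𝓝[Icc 0 b] t) (𝓝 0) := fun t ht => by
    have a1 := (ENNReal.tendsto_toReal ENNReal.zero_ne_top).comp
      ((h.cont t (hs ht)).mono_left (nhdsWithin_mono _ hs))
    refine a1.congr' ?_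
    filter_upwards [self_mem_nhdsWithin] with r hr
    have e : hat (u r - u t : Fn d) = _ := funext (hat_sub (int_fn (u r)) (int_fn (u t)))
    rw [Function.comp_apply, Hs_nat (e ▸ mem_sub (h1 r hr) (h1 t ht)), e,
      ENNReal.toReal_ofReal (sobolevSq_nonneg _)]
  refine ⟨h1, h2, fun t ht n => ?_⟩
  have hX := cont_lift h1 h2
  set X := liftH k fun t => hat (u t) with hXd
  have h3 : ∀ t ∈ Icc 0 b, cf k (X t) = hat (u t) := fun t ht => cf_liftH (h1 t ht)
  have hN : ContinuousOn (fun r => ph (-r) n * cf k (NH hk m (X r)) n) (Icc 0 b) :=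
    (continuous_ph n).continuousOn.mul
      (((cfL k n).continuous.comp (continuous_NH hk m)).comp_continuousOn hX)
  have h4 : ∀ s ∈ Icc 0 b, hat (u s) n = ph s n * (hat (u 0) n -
      I * ∫ r in (0 : ℝ)..s, ph (-r) n * cf k (NH hk m (X r)) n) := fun s hs' => by
    rw [h.duhamel s (hs hs') n, ph_eq', mul_sub, mul_left_comm,
      ← intervalIntegral.integral_const_mul (ph s n)]
    congr 2
    refine intervalIntegral.integral_congr fun r hr => ?_
    rw [uIcc_of_le hs'.1] at hr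
    simp only [ph_eq]
    rw [hat_nl hk (h3 r ⟨hr.1, hr.2.trans hs'.2⟩), mul_assoc]
  have : Fact (t ∈ Icc 0 b) := ⟨ht⟩
  have h5 := intervalIntegral.integral_hasDerivWithinAt_right (a := 0) (s := Icc 0 b)
    (t := Icc 0 b) ((hN.mono (by rw [uIcc_of_le ht.1]; exact Icc_subset_Icc_right ht.2)
      ).intervalIntegrable) (hN.stronglyMeasurableAtFilter_nhdsWithin measurableSet_Icc t) (hN t ht)
  have h6 := (hasDerivAt_ph n t).hasDerivWithinAt.mul
    ((h5.const_mul I).const_sub (hat (u 0) n))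
  refine ⟨_, h6.congr h4 (h4 t ht), ?_⟩
  rw [← h3 t ht, nl_coef hk, h3 t ht, h4 t ht]
  linear_combination (-(ph t n * sqNorm n * (hat (u 0) n - I * ∫ r in (0 : ℝ)..t,
    ph (-r) n * cf k (NH hk m (X r)) n)) - ph t n * ph (-t) n * cf k (NH hk m (X t)) n) * I_sq +
    cf k (NH hk m (X t)) n * ph_mul_neg t n

theorem sol_of_modes (hk : d < 2 * k) {a : ℝ → Lat d → ℂ}
    (h : ∀ b ∈ dom T, IsSolution d (2 * m + 1) k b a) :
    ∃ u : ℝ → Fn d, Sol (2 * m + 1) k T u ∧ ∀ t ∈ dom T, hat (u t) = a t := by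
  have h0 : ∀ t ∈ dom T, MemSobolev k (a t) := fun t ht => (h t ht).mem t ⟨ht.1, le_rfl⟩
  have h1 : ∀ t : ℝ, ∃ f : Fn d, t ∈ dom T → hat f = a t := fun t => by
    by_cases ht : t ∈ dom T
    · obtain ⟨f, hf, -⟩ := exists_fn (Persist.summable_of_memSobolev hk (h0 t ht))
      exact ⟨f, fun _ => hf⟩
    · exact ⟨0, fun h => (ht h).elim⟩
  choose u hu using h1
  refine ⟨u, ⟨fun t ht => mem_iff.2 (hu t ht ▸ h0 t ht), fun t ht => ?_, fun t ht n => ?_⟩, hu⟩
  · obtain ⟨b, hb, htb⟩ := exists_gt ht.2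
    have a1 : 𝓝[dom T] t ≤ 𝓝[Icc 0 b] t := nhdsWithin_le_of_mem (by
      filter_upwards [self_mem_nhdsWithin, mem_nhdsWithin_of_mem_nhds (Iio_mem_nhds htb)]
        with r h1 h2 using ⟨h1.1, le_of_lt h2⟩)
    have a2 := ENNReal.tendsto_ofReal (((h b hb).cont t ⟨ht.1, htb.le⟩).mono_left a1)
    rw [ENNReal.ofReal_zero] at a2
    refine a2.congr' ?_
    filter_upwards [self_mem_nhdsWithin] with r hr
    have e : hat (u r - u t : Fn d) = _ := funext (hat_sub (int_fn (u r)) (int_fn (u t)))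
    rw [hu r hr, hu t ht] at e
    rw [Hs_nat (e ▸ mem_sub (h0 r hr) (h0 t ht)), e]
  have hs := Icc_sub ht
  have hX := cont_liftH (h t ht)
  have h3 : ∀ r ∈ Icc 0 t, cf k (liftH k a r) = a r := fun r hr => cf_liftH (h0 r (hs hr))
  have hN : ContinuousOn (fun r => -I * (ph (-r) n * cf k (NH hk m (liftH k a r)) n)) (Icc 0 t) :=
    continuousOn_const.mul ((continuous_ph n).continuousOn.mul
      (((cfL k n).continuous.comp (continuous_NH hk m)).comp_continuousOn hX))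
  have h4 : ∀ r ∈ Icc 0 t, HasDerivWithinAt (fun s => cf k (U (-s) (liftH k a s)) n)
      (-I * (ph (-r) n * cf k (NH hk m (liftH k a r)) n)) (Icc 0 t) r := fun r hr => by
    have := ((cfL k n).restrictScalars ℝ).hasFDerivAt.comp_hasDerivWithinAt r
      (duhamelH hk (h t ht) hr)
    refine this.congr_deriv ?_
    change cf k _ n = _
    rw [cf_U, cf_smul, mul_left_comm]
  have h5 := intervalIntegral.integral_eq_sub_of_hasDerivAt_of_le ht.1
    (fun r hr => (h4 r hr).continuousWithinAt)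
    (fun r hr => (h4 r (Ioo_subset_Icc_self hr)).hasDerivAt (Icc_mem_nhds hr.1 hr.2))
    ((hN.mono (uIcc_of_le ht.1).subset).intervalIntegrable)
  have hz : (0 : ℝ) ∈ Icc 0 t := ⟨le_rfl, ht.1⟩
  rw [intervalIntegral.integral_const_mul, cf_U, cf_U, h3 t ⟨ht.1, le_rfl⟩, h3 0 hz] at h5
  have h6 : ∫ r in (0 : ℝ)..t, exp (-I * nsq n * (t - r)) *
      hat (fun x => (‖u r x‖ : ℂ) ^ (2 * m + 1 - 1) * u r x) n =
      ph t n * ∫ r in (0 : ℝ)..t, ph (-r) n * cf k (NH hk m (liftH k a r)) n := by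
    rw [← intervalIntegral.integral_const_mul]
    refine intervalIntegral.integral_congr fun r hr => ?_
    rw [uIcc_of_le ht.1] at hr
    simp only [ph_eq]
    rw [hat_nl hk ((h3 r hr).trans (hu r (hs hr)).symm), mul_assoc]
  have h7 : ph (-0) n = 1 := by simp [ph]
  rw [h6, ph_eq', hu t ht, hu 0 (hs hz)]
  rw [h7] at h5
  linear_combination -ph t n * h5 - a t n * ph_mul_neg t n

theorem restr {p : ℕ} {b c : ℝ} {u v : ℝ → Lat d → ℂ} (h : IsSolution d p k c u)
    (hb : b ≤ c) (e : ∀ t ∈ Icc 0 b, v t = u t) : IsSolution d p k b v := by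
  have hs : Icc 0 b ⊆ Icc 0 c := Icc_subset_Icc_right hb
  refine ⟨fun t ht => e t ht ▸ h.mem t (hs ht), fun t ht => ?_, fun t ht n => ?_⟩
  · refine ((h.cont t (hs ht)).mono_left (nhdsWithin_mono _ hs)).congr' ?_
    filter_upwards [self_mem_nhdsWithin] with r hr
    rw [e r hr, e t ht]
  · obtain ⟨w, h1, h2⟩ := h.eqn t (hs ht) n
    exact ⟨w, (h1.mono hs).congr (fun s hs => congrFun (e s hs) n) (congrFun (e t ht) n),
      e t ht ▸ h2⟩

theorem Sol.le (hk : d < 2 * k) {u : ℝ → Fn d} (h : Sol (2 * m + 1) k T u) :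
    T ≤ lifespan d (2 * m + 1) k (hat (u 0)) := by
  refine not_lt.1 fun hlt => ?_
  obtain ⟨r, h0, h1, h2⟩ := ENNReal.lt_iff_exists_real_btwn.1 hlt
  exact h1.not_ge (lifespan_ge h0 ⟨_, rfl, h.modes hk ⟨h0, h2⟩⟩)

theorem life_le (hk : d < 2 * k) (f : Fn d) :
    life (2 * m + 1) k f ≤ lifespan d (2 * m + 1) k (hat f) :=
  sSup_le fun _ ⟨_, h1, h2⟩ => h2 ▸ h1.le hk

theorem exists_sol (hk : d < 2 * k) {f : Fn d} (h : Hs k f < ⊤) :
    ∃ u, Sol (2 * m + 1) k (lifespan d (2 * m + 1) k (hat f)) u ∧ u 0 = f := by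
  have h0 := lifespan_pos_of_mem (m := m) hk (mem_iff.1 h)
  set T := lifespan d (2 * m + 1) k (hat f) with hT
  have h1 : ∀ t : ℝ, ∃ v, t ∈ dom T → IsSolution d (2 * m + 1) k t v ∧ v 0 = hat f := fun t => by
    by_cases ht : t ∈ dom T
    · obtain ⟨c, hc⟩ := lt_iSup_iff.1 ht.2
      obtain ⟨⟨v, h1, h2⟩, h3⟩ := lt_iSup_iff.1 hc
      rw [← ENNReal.ofReal_coe_nnreal] at h3
      exact ⟨v, fun _ => ⟨restr h1 (ENNReal.ofReal_lt_ofReal_iff'.1 h3).1.le fun _ _ => rfl, h2⟩⟩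
    · exact ⟨0, fun h => (ht h).elim⟩
  choose v hv using h1
  obtain ⟨u, h2, h3⟩ := sol_of_modes (m := m) (T := T) hk (a := fun t => v t t) fun b hb =>
    restr (hv b hb).1 le_rfl fun t ht => sol_unique hk hk (hv t (Icc_sub hb ht)).1 (hv b hb).1
      ((hv t (Icc_sub hb ht)).2.trans (hv b hb).2.symm) ht.1 le_rfl ht.2
  have hz : (0 : ℝ) ∈ dom T := ⟨le_rfl, by simpa using h0⟩
  exact ⟨u, h2, hat_inj ((h3 0 hz).trans (hv 0 hz).2)⟩

theorem life_eq (hk : d < 2 * k) {f : Fn d} (h : Hs k f < ⊤) :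
    life (2 * m + 1) k f = lifespan d (2 * m + 1) k (hat f) :=
  (life_le hk f).antisymm (le_sSup (exists_sol hk h))

theorem Sol.unique (hk : d < 2 * k) {T' : ℝ≥0∞} {u u' : ℝ → Fn d} (h : Sol (2 * m + 1) k T u)
    (h' : Sol (2 * m + 1) k T' u') (e : u 0 = u' 0) {t : ℝ} (ht : t ∈ dom T) (ht' : t ∈ dom T') :
    u t = u' t :=
  hat_inj (sol_unique hk hk (h.modes hk ht) (h'.modes hk ht') (congrArg (fun f : Fn d => hat f) e)
    ht.1 le_rfl le_rfl)

theorem lifespan_le {k' : ℕ} (hk : d < 2 * k) (hk' : d < 2 * k') {a : Lat d → ℂ}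
    (ha : MemSobolev k' a) : lifespan d (2 * m + 1) k a ≤ lifespan d (2 * m + 1) k' a := by
  refine not_lt.1 fun hlt => ?_
  obtain ⟨c, hc⟩ := lt_iSup_iff.1 hlt
  obtain ⟨⟨u, hu, hu0⟩, h1⟩ := lt_iSup_iff.1 hc
  obtain ⟨R, hR⟩ := isCompact_Icc.exists_bound_of_continuousOn (wsol0 hk hu).cont
  obtain ⟨K, hK0, hK⟩ := sob_bound hk' m (R := max R 0) (le_max_right _ _)
  obtain ⟨T, v, hT, hv, hv0, hM⟩ := blowup_alternative hk' ha h1.ne_top
    (sobolevSq k' a * Real.exp (K * c) ^ 2 + 1)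
  have h2 : T ≤ c := by
    have h3 := (lifespan_ge hT ⟨v, hv0, hv⟩).trans h1.le
    rw [← ENNReal.ofReal_coe_nnreal] at h3
    exact (ENNReal.ofReal_le_ofReal_iff c.2).1 h3
  have h3 := hK T v hT hv fun t ht => by
    have e := sol_unique hk' hk hv hu (hv0.trans hu0.symm) ht.1 ht.2 (ht.2.trans h2)
    refine le_trans (le_of_eq ?_) ((hR t ⟨ht.1, ht.2.trans h2⟩).trans (le_max_left _ _))
    rw [WA.norm_eq, WA.norm_eq]
    refine tsum_congr fun n => ?_
    rw [coef_lift0 hk' hv ht, coef_lift0 hk hu ⟨ht.1, ht.2.trans h2⟩, e]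
  have h4 : sobolevSq k' a * Real.exp (K * T) ^ 2 ≤ sobolevSq k' a * Real.exp (K * c) ^ 2 := by
    have := sobolevSq_nonneg (k := k') a
    gcongr
  rw [hv0] at h3
  linarith

end Vale.Agent.N139X
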