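import Mathlib

/-! Defocusing NLS on the torus: functions, Sobolev norms, Duhamel solutions, lifespan, random
data. -/

open Set MeasureTheory ProbabilityTheory Filter Topology Complex
open scoped ENNReal

namespace Vale.Agent.N139X

noncomputable section

/-- The torus `(ℝ/2πℤ)^d`. -/
abbrev Tor (d : ℕ) : Type := Fin d → AddCircle (2 * Real.pi)

/-- Continuous complex functions on the torus. -/
abbrev Fn (d : ℕ) : Type := C(Tor d, ℂ)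

/-- Normalised Lebesgue measure on the torus. -/
def vol (d : ℕ) : Measure (Tor d) :=
  Measure.pi fun _ => @AddCircle.haarAddCircle (2 * Real.pi) ⟨Real.two_pi_pos⟩

variable {d : ℕ}

/-- The character `e^{i n·x}`. -/
def ch (n : Fin d → ℤ) (x : Tor d) : ℂ := ∏ j, fourier (n j) (x j)

/-- The Fourier coefficient. -/
def hat (f : Tor d → ℂ) (n : Fin d → ℤ) : ℂ := ∫ x, f x * ch (-n) x ∂vol d

/-- `|n|²`. -/
def nsq (n : Fin d → ℤ) : ℝ := ∑ j, (n j : ℝ) ^ 2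

/-- The squared `H^s` norm `∑ ⟨n⟩^{2s} |f̂(n)|²`, in `[0, ∞]`. -/
def Hs (s : ℝ) (f : Tor d → ℂ) : ℝ≥0∞ :=
  ∑' n, ENNReal.ofReal ((1 + nsq n) ^ s * ‖hat f n‖ ^ 2)

/-- The time interval `[0, T)`. -/
def dom (T : ℝ≥0∞) : Set ℝ := {t | 0 ≤ t ∧ ENNReal.ofReal t < T}

/-- `u ∈ C([0,T); H^k)` solves `i ∂_t u + Δ u = |u|^{p-1} u` in Duhamel form:
`u(t) = e^{itΔ} u(0) - i ∫_0^t e^{i(t-r)Δ} (|u|^{p-1} u)(r) dr`. -/
structure Sol (p k : ℕ) (T : ℝ≥0∞) (u : ℝ → Fn d) : Prop where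
  mem : ∀ t ∈ dom T, Hs k (u t) < ⊤
  cont : ∀ t ∈ dom T, Tendsto (fun r => Hs k (u r - u t)) (𝓝[dom T] t) (𝓝 0)
  duhamel : ∀ t ∈ dom T, ∀ n, hat (u t) n = exp (-I * nsq n * t) * hat (u 0) n -
    I * ∫ r in (0 : ℝ)..t, exp (-I * nsq n * (t - r)) *
      hat (fun x => (‖u r x‖ : ℂ) ^ (p - 1) * u r x) n

/-- The lifespan `T*` in `H^k` of the datum `f`. -/
def life (p k : ℕ) (f : Fn d) : ℝ≥0∞ := sSup {T | ∃ u, Sol p k T u ∧ u 0 = f}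

/-- The critical exponent `d/2 - 2/(p-1)`. -/
def scr (d p : ℕ) : ℝ := d / 2 - 2 / (p - 1)

/-- The `g_n` are independent standard complex Gaussians (density `e^{-|z|²}/π`). -/
def Gauss {Ω : Type} [MeasurableSpace Ω] (P : Measure Ω) (g : (Fin d → ℤ) → Ω → ℂ) : Prop :=
  IsProbabilityMeasure P ∧ (∀ n, Measurable (g n)) ∧ iIndepFun g P ∧
    ∀ n, P.map (g n) = volume.withDensity fun z => ENNReal.ofReal (Real.exp (-‖z‖ ^ 2) / Real.pi)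

/-- `f = ∑ g_n(o) ⟨n⟩^{-α} e^{i n·x}` and `f ∈ H^k`. -/
def Datum {Ω : Type} (g : (Fin d → ℤ) → Ω → ℂ) (α : ℝ) (k : ℕ) (o : Ω) (f : Fn d) : Prop :=
  (∀ x, HasSum (fun n => g n o * (√(1 + nsq n) ^ (-α) : ℝ) * ch n x) (f x)) ∧ Hs k f < ⊤

/-- The event `T* ≤ T`. -/
def Blow {Ω : Type} (g : (Fin d → ℤ) → Ω → ℂ) (α : ℝ) (p k : ℕ) (T : ℝ) : Set Ω :=
  {o | ∃ f, Datum g α k o f ∧ life p k f ≤ ENNReal.ofReal T}

/-- `d/2 < k < α - d/2`. -/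
def Adm (d k : ℕ) (α : ℝ) : Prop := d < 2 * k ∧ (k : ℝ) < α - d / 2

/-- The question, with `k` and the Gaussian family chosen at will. -/
def Q1 : Prop :=
  ∀ d p : ℕ, 1 ≤ d → Odd p → 3 ≤ p → 1 < scr d p → ∃ α₀ : ℝ, ∀ α > α₀, ∃ k, Adm d k α ∧
    ∃ (Ω : Type) (_ : MeasurableSpace Ω) (P : Measure Ω) (g : (Fin d → ℤ) → Ω → ℂ),
      Gauss P g ∧ ∀ᵐ o ∂P, ∃ f, Datum g α k o f ∧ life p k f = ⊤

end

end Vale.Agent.N139X
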