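import Vale.Agent.N139.Main

/-! Concentrated bubbles: trigonometric polynomials whose large neighbourhoods blow up. -/

open Set Filter Topology MeasureTheory Complex
open scoped NNReal ENNReal

namespace Vale.Agent.N139X

open Vale.Agent.P139 Vale.Agent.P139.A Vale.Agent.P139.A.WA Vale.Agent.P139Z Vale.Agent.N139
open Vale.Agent.P139Z.XW Vale.Agent.P139Z.Per

variable {d k m : ℕ}

theorem exists_trunc (G : XW d k) {ε : ℝ} (hε : 0 < ε) : ∃ (F : XW d k) (M R : ℝ), 0 < M ∧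
    1 ≤ R ∧ ‖F - G‖ ≤ ε ∧ ∀ ρ : ℝ, 0 < ρ → ρ ≤ 1 → ∀ n, ‖coef (per ρ F) n‖ ≤ M * ρ ^ d ∧
      (coef (per ρ F) n ≠ 0 → ρ * ‖n‖ ≤ R) := by
  obtain ⟨g, hg1, hg2, hg3, hg4⟩ :=
    (integrable_wt G le_rfl).exists_hasCompactSupport_integral_sub_le hε
  obtain ⟨M, hM⟩ := hg3.bounded_above_of_compact_support hg1
  obtain ⟨R, hR⟩ := hg1.isCompact.isBounded.subset_closedBall 0
  have hw : ∀ ξ : Fq d, (wt k ξ : ℂ) ≠ 0 := fun ξ => by exact_mod_cast (Per.wt_pos k ξ).ne'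
  have e : ∀ ξ : Fq d, (wt k ξ : ℂ) * (g ξ / wt k ξ) = g ξ := fun ξ => mul_div_cancel₀ _ (hw ξ)
  have hi : Integrable fun ξ : Fq d => (wt k ξ : ℂ) * (g ξ / wt k ξ) := by simpa only [e] using hg4
  have hM0 : 0 ≤ M := (norm_nonneg _).trans (hM 0)
  refine ⟨XW.mk _ hi, M + 1, |R| + 1, by linarith, by linarith [abs_nonneg R], ?_,
    fun ρ h0 h1 n => ?_⟩
  · rw [XW.norm_eq, nrmX]
    refine le_trans (le_of_eq (integral_congr_ae ?_)) hg2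
    filter_upwards [fn_sub (XW.mk _ hi) G, fn_mk _ hi] with ξ a1 a2
    rw [a1, a2, norm_sub_rev (_ * _), ← e ξ, ← mul_sub, norm_mul, norm_real,
      Real.norm_of_nonneg (Per.wt_pos k ξ).le, e]
  have e2 : coef (per ρ (XW.mk _ hi)) n = ∫ ξ in cell ρ n, g ξ / wt k ξ := by
    rw [coef_per h0]
    exact integral_congr_ae (ae_restrict_of_ae (fn_mk _ hi))
  rw [e2]
  constructor
  · rw [← real_cell h0 n]
    refine norm_setIntegral_le_of_norm_le_const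
      (by rw [volume_cell h0]; exact ENNReal.ofReal_lt_top) fun ξ _ => ?_
    rw [norm_div, norm_real, Real.norm_of_nonneg (Per.wt_pos k ξ).le]
    exact (div_le_self (norm_nonneg _) (Per.one_le_wt k ξ)).trans (by linarith [hM ξ])
  · intro h
    by_contra hc
    refine h (setIntegral_eq_zero_of_forall_eq_zero fun ξ hξ => ?_)
    have a1 := norm_sub_lat h0 ξ
    rw [mem_cell.1 hξ] at a1
    have a2 := (norm_lat h0 n).ge
    have a3 := norm_sub_norm_le (lat ρ n) ξ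
    rw [norm_sub_rev] at a3
    have a4 : ξ ∉ tsupport g := fun a5 => by
      have a6 := mem_closedBall_zero_iff.1 (hR a5)
      exact hc (by linarith [le_abs_self R])
    rw [image_eq_zero_of_notMem_tsupport a4, zero_div]

theorem bubble (B : Bg d m) (hm : 1 ≤ m) (hk : 8 * B.K0 + 8 ≤ k) (hL : B.LIN k) :
    ∃ δ lam₀ M R : ℝ, 0 < δ ∧ 0 < lam₀ ∧ lam₀ ≤ 1 ∧ 0 < M ∧ 1 ≤ R ∧
      ∀ lam : ℝ, 0 < lam → lam ≤ lam₀ → ∃ ψ : Lat d → ℂ,
        (∀ n, ‖ψ n‖ ≤ M * lam ^ ((d : ℝ) - (m : ℝ)⁻¹)) ∧ (∀ n, ψ n ≠ 0 → lam * ‖n‖ ≤ R) ∧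
        ∀ a : Lat d → ℂ, (Summable fun n => W (k + 1) n * ‖a n‖) →
          ∑' n, W k n * ‖a n - ψ n‖ ≤ δ * lam ^ (-(m : ℝ)⁻¹) → ∀ k' : ℕ, d < 2 * k' →
          lifespan d (2 * m + 1) k' a ≤ ENNReal.ofReal (2 * lam ^ 2) := by
  obtain ⟨δ₀, τ, A, hδ₀, hτ, hA, H⟩ := one_step' B hm hk hL
  have hq : 0 < ‖evf B.Q 0‖ := norm_pos_iff.2 B.q_zero
  obtain ⟨δ, hδ⟩ : ∃ δ : ℝ, δ = min δ₀ (‖evf B.Q 0‖ / 2) := ⟨_, rfl⟩
  have hδ0 : 0 < δ := by rw [hδ]; positivity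
  obtain ⟨lam₀, hl0, hl1, H1⟩ := H δ hδ0 (hδ ▸ min_le_left _ _)
  have HS : StepP B k δ lam₀ τ := fun lam a1 a2 T U hU h0 => (H1 lam a1 a2 T U hU h0).2
  obtain ⟨F, M, R, hM, hR, hF, H2⟩ := exists_trunc (B.Qh k) (ε := δ / 2 / 2 ^ k) (by positivity)
  refine ⟨δ / 2, lam₀, M, R, by positivity, hl0, hl1, hM, hR, fun lam g0 g1 => ?_⟩
  obtain ⟨c, hc⟩ : ∃ c : ℂ, c = cexp (2 * B.Λ * Real.log lam) := ⟨_, rfl⟩
  have hc0 : c ≠ 0 := hc ▸ Complex.exp_ne_zero _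
  have hcn : ‖c‖ = lam ^ (m : ℝ)⁻¹ := by
    rw [hc, B.norm_scale, Real.rpow_def_of_pos g0, mul_comm]
  have hp : 0 < lam ^ (m : ℝ)⁻¹ := Real.rpow_pos_of_pos g0 _
  refine ⟨coef (c⁻¹ • per lam F), fun n => ?_, fun n hn => ?_, fun a ha hε k' hk' => ?_⟩
  · rw [coef_smul, norm_mul, norm_inv, hcn, Real.rpow_sub g0, Real.rpow_natCast,
      ← mul_div_assoc, inv_mul_eq_div]
    gcongr
    exact (H2 lam g0 (g1.trans hl1) n).1
  · rw [coef_smul] at hn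
    exact (H2 lam g0 (g1.trans hl1) n).2 (right_ne_zero_of_mul hn)
  unfold lifespan
  refine iSup₂_le fun T hT => ?_
  obtain ⟨u, hu, hu0⟩ := hT
  rw [← ENNReal.ofReal_coe_nnreal]
  refine ENNReal.ofReal_le_ofReal ?_
  obtain ⟨U, hU, hUu⟩ := exists_isWSol hk' hu k (by rw [hu0]; exact ha)
  refine short B hm (hδ ▸ min_le_right _ _) hτ.le HS g0 g1 hU ?_
  have e : c • U 0 - per lam (B.Qh k) = c • (U 0 - c⁻¹ • per lam F) + per lam (F - B.Qh k) := by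
    rw [smul_sub, smul_smul, mul_inv_cancel₀ hc0, one_smul, map_sub]
    abel
  have h1 : nrm lam k (U 0 - c⁻¹ • per lam F) ≤ δ / 2 * lam ^ (-(m : ℝ)⁻¹) := by
    refine (nrm_scale_le (ρ := 1) (c := 1) zero_le_one g0.le le_rfl (by linarith) le_rfl
      _).trans ?_
    rw [one_pow, one_mul, nrm_one, WA.norm_eq]
    refine le_trans (le_of_eq (tsum_congr fun n => ?_)) hε
    rw [coef_sub, hUu 0 ⟨le_rfl, T.2⟩, hu0]
  have h2 := Step.nrm_per_le g0 (g1.trans hl1) (F - B.Qh k)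
  have h3 : 2 ^ k * ‖F - B.Qh k‖ ≤ δ / 2 := by
    rwa [le_div_iff₀ (by positivity), mul_comm] at hF
  unfold Bg.dist
  rw [← hc, e]
  refine (nrm_add_le g0.le le_rfl _ _).trans ?_
  rw [nrm_smul, hcn]
  rw [Real.rpow_neg g0.le, ← div_eq_mul_inv, le_div_iff₀ hp, mul_comm] at h1
  linarith

end Vale.Agent.N139X
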