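import Vale.Agent.P139Z.Prob

/-! Quantitative Gaussian estimates: shifted balls from below, the Wiener norm from above. -/

open Set Filter Topology MeasureTheory ProbabilityTheory Metric
open scoped NNReal ENNReal

namespace Vale.Agent.N139X

open Vale.Agent.P139 Vale.Agent.P139.A Vale.Agent.P139Z Vale.Agent.P139Z.Prob

variable {d : ℕ}

theorem std_eq : stdComplexGaussian =
    volume.withDensity fun z : ℂ => ENNReal.ofReal (Real.exp (-‖z‖ ^ 2) / Real.pi) := by
  have hm : Measurable fun z : ℂ => ENNReal.ofReal (Real.exp (-‖z‖ ^ 2) / Real.pi) := by fun_prop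
  have hv := Complex.volume_preserving_equiv_real_prod.symm
  have hg : Measurable (gaussianPDF 0 (1 / 2)) := measurable_gaussianPDF _ _
  unfold stdComplexGaussian
  rw [gaussianReal_of_var_ne_zero 0 (by norm_num), prod_withDensity hg hg]
  ext s hs
  rw [Measure.map_apply measurable_mkC hs, withDensity_apply _ hs,
    withDensity_apply _ (measurable_mkC hs), ← hv.setLIntegral_comp_preimage hs hm]
  refine lintegral_congr fun z => ?_
  rw [gaussianPDF, gaussianPDF, ← ENNReal.ofReal_mul (gaussianPDFReal_nonneg _ _ _)]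
  congr 1
  have h1 : ‖Complex.measurableEquivRealProd.symm z‖ ^ 2 = z.1 ^ 2 + z.2 ^ 2 := by
    rw [Complex.sq_norm, Complex.normSq_apply]
    simp [pow_two]
  have h2 : √Real.pi * √Real.pi = Real.pi := Real.mul_self_sqrt Real.pi_pos.le
  rw [h1]
  simp only [gaussianPDFReal, NNReal.coe_div, NNReal.coe_one, NNReal.coe_ofNat, sub_zero]
  rw [show 2 * Real.pi * (1 / 2) = Real.pi by ring, show (2 : ℝ) * (1 / 2) = 1 by ring, div_one,
    div_one, neg_add, Real.exp_add, mul_mul_mul_comm, ← mul_inv, h2, inv_mul_eq_div]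

theorem ball_lower (h : ℂ) :
    ENNReal.ofReal (Real.exp (-(2 * ‖h‖ ^ 2 + 2))) ≤ stdComplexGaussian (closedBall h 1) := by
  rw [std_eq, withDensity_apply _ measurableSet_closedBall]
  have h1 : ∀ z ∈ closedBall h 1, ENNReal.ofReal (Real.exp (-(2 * ‖h‖ ^ 2 + 2)) / Real.pi) ≤
      ENNReal.ofReal (Real.exp (-‖z‖ ^ 2) / Real.pi) := fun z hz => by
    have a1 : ‖z‖ ≤ ‖h‖ + 1 := by
      have := norm_sub_norm_le z h
      rw [mem_closedBall, dist_eq_norm] at hz
      linarith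
    have a2 : ‖z‖ ^ 2 ≤ 2 * ‖h‖ ^ 2 + 2 := by
      nlinarith [norm_nonneg z, norm_nonneg h, sq_nonneg (‖h‖ - 1)]
    gcongr
  refine le_trans (le_of_eq ?_) (setLIntegral_mono' measurableSet_closedBall h1)
  rw [setLIntegral_const, Complex.volume_closedBall, ENNReal.ofReal_one, one_pow, one_mul,
    ← ENNReal.ofReal_coe_nnreal, NNReal.coe_real_pi, ← ENNReal.ofReal_mul (by positivity),
    div_mul_cancel₀ _ Real.pi_ne_zero]

theorem exp_moment : ∫⁻ z, ENNReal.ofReal (Real.exp (‖z‖ ^ 2 / 2)) ∂stdComplexGaussian < ∞ := by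
  rw [std_eq, lintegral_withDensity_eq_lintegral_mul _ (by fun_prop) (by fun_prop)]
  have h1 := (GaussianFourier.integrable_cexp_neg_mul_sq_norm_add (V := ℂ) (b := 1 / 2)
    (by norm_num) 0 0).norm.div_const Real.pi
  refine lt_of_eq_of_lt (lintegral_congr fun z => ?_) h1.lintegral_lt_top
  rw [Pi.mul_apply, ← ENNReal.ofReal_mul (by positivity), Complex.norm_exp]
  congr 1
  have h2 : (-(1 / 2 : ℂ) * (‖z‖ : ℂ) ^ 2 + 0 * (inner ℝ (0 : ℂ) z : ℝ)).re = -‖z‖ ^ 2 / 2 := by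
    rw [zero_mul, add_zero, ← Complex.ofReal_re (-‖z‖ ^ 2 / 2)]
    congr 1
    push_cast
    ring
  rw [h2, div_mul_eq_mul_div, ← Real.exp_add]
  congr 2
  ring

/-- The weighted sum `∑ q_n |g_n - c_n|` is bounded on an event of explicit probability. -/
theorem event_lower {q : Lat d → ℝ} (hq0 : ∀ n, 0 ≤ q n) (hq : Summable q) :
    ∃ ρ : ℝ, 0 < ρ ∧ ∀ (Ω : Type) [MeasurableSpace Ω] (P : Measure Ω) [IsProbabilityMeasure P]
      (g : Lat d → Ω → ℂ), (∀ n, Measurable (g n)) → iIndepFun g P →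
      (∀ n, P.map (g n) = stdComplexGaussian) → ∀ (s : Finset (Lat d)) (c : Lat d → ℂ),
      (∀ n ∉ s, c n = 0) → ∃ E : Set Ω, MeasurableSet E ∧
        ENNReal.ofReal (Real.exp (-(∑ n ∈ s, (2 * ‖c n‖ ^ 2 + 2) + 1))) ≤ P E ∧
        ∀ ω ∈ E, (Summable fun n => q n * ‖g n ω - c n‖) ∧
          ∑' n, q n * ‖g n ω - c n‖ ≤ ρ := by
  classical
  set mom : ℝ≥0∞ := ∫⁻ z, ‖z‖ₑ ∂stdComplexGaussian with hmom
  have hmomT : mom ≠ ∞ := std_moment.ne
  have hm0 : 0 ≤ mom.toReal := ENNReal.toReal_nonneg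
  have hQ : 0 ≤ ∑' n, q n := tsum_nonneg hq0
  obtain ⟨ρ, hρd⟩ : ∃ ρ : ℝ, ρ = 2 * ((∑' n, q n + 1) * (mom.toReal + 1)) := ⟨_, rfl⟩
  have hρ : 0 < ρ := by rw [hρd]; positivity
  refine ⟨∑' n, q n + ρ, by positivity, fun Ω mΩ P _ g hm hind hg s c hc => ?_⟩
  set q' : Lat d → ℝ := fun n => if n ∈ s then 0 else q n with hq'
  have hq'0 : ∀ n, 0 ≤ q' n := fun n => by simp only [hq']; split_ifs <;> simp [hq0]
  have hq's : Summable q' := summable_tail hq0 hq s
  have hq't : ∑' n, q' n ≤ ∑' n, q n :=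
    hq's.tsum_le_tsum (fun n => by simp only [hq']; split_ifs <;> simp [hq0]) hq
  set τ : Ω → ℝ≥0∞ := fun ω => ∑' n, if n ∈ s then 0 else ENNReal.ofReal (q n) * ‖g n ω‖ₑ with hτ
  have hτm : Measurable τ := meas_tail g s _ fun n _ => hm n
  have hτi : ∫⁻ ω, τ ω ∂P ≤ ENNReal.ofReal (ρ / 2) := by
    have h1 : ∀ n, Measurable fun ω => if n ∈ s then (0 : ℝ≥0∞) else
        ENNReal.ofReal (q n) * ‖g n ω‖ₑ := by
      intro n
      by_cases hn : n ∈ s
      · simp only [hn, if_true]; exact measurable_const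
      · simp only [hn, if_false]; exact (hm n).enorm.const_mul _
    simp only [hτ]
    rw [lintegral_tsum fun n => (h1 n).aemeasurable]
    have h2 : ∀ n, ∫⁻ ω, (if n ∈ s then (0 : ℝ≥0∞) else ENNReal.ofReal (q n) * ‖g n ω‖ₑ) ∂P =
        ENNReal.ofReal (q' n) * mom := by
      intro n
      by_cases hn : n ∈ s
      · simp [hn, hq']
      · simp only [hn, hq', if_false]
        rw [lintegral_const_mul _ (hm n).enorm, hmom, ← hg n, lintegral_map (by fun_prop) (hm n)]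
    simp_rw [h2]
    rw [ENNReal.tsum_mul_right, ← ENNReal.ofReal_tsum_of_nonneg hq'0 hq's,
      ← ENNReal.ofReal_toReal hmomT, ← ENNReal.ofReal_mul (tsum_nonneg hq'0)]
    apply ENNReal.ofReal_le_ofReal
    calc (∑' n, q' n) * mom.toReal ≤ (∑' n, q n + 1) * (mom.toReal + 1) := by
          gcongr <;> linarith
      _ = ρ / 2 := by rw [hρd]; ring
  have hB : ENNReal.ofReal (Real.exp (-1)) ≤ P {ω | τ ω < ENNReal.ofReal ρ} := by
    have h0 : (1 / 2 : ℝ≥0∞) = ENNReal.ofReal (1 / 2) := by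
      rw [ENNReal.ofReal_div_of_pos (by norm_num)]; simp
    have h1 := mul_meas_ge_le_lintegral (μ := P) hτm (ENNReal.ofReal ρ)
    have h2 : P {ω | ENNReal.ofReal ρ ≤ τ ω} ≤ 1 / 2 := by
      have h3 : ENNReal.ofReal ρ * P {ω | ENNReal.ofReal ρ ≤ τ ω} ≤
          ENNReal.ofReal ρ * (1 / 2) := by
        refine (h1.trans hτi).trans (le_of_eq ?_)
        rw [h0, ← ENNReal.ofReal_mul (by positivity)]
        congr 1
        ring
      exact (ENNReal.mul_le_mul_iff_right (ENNReal.ofReal_pos.2 hρ).ne'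
        ENNReal.ofReal_ne_top).1 h3
    have h3 : {ω | τ ω < ENNReal.ofReal ρ} = {ω | ENNReal.ofReal ρ ≤ τ ω}ᶜ := by
      ext ω; simp
    rw [h3, prob_compl_eq_one_sub (measurableSet_le measurable_const hτm)]
    refine le_trans ?_ (tsub_le_tsub_left h2 1)
    rw [one_div, ENNReal.one_sub_inv_two, ← one_div, h0]
    refine ENNReal.ofReal_le_ofReal ?_
    rw [Real.exp_neg, one_div]
    exact inv_anti₀ two_pos (by linarith [Real.add_one_le_exp 1])
  have hA : ENNReal.ofReal (Real.exp (-∑ n ∈ s, (2 * ‖c n‖ ^ 2 + 2))) ≤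
      P (⋂ n ∈ s, g n ⁻¹' closedBall (c n) 1) := by
    rw [hind.measure_inter_preimage_eq_mul s fun n _ => measurableSet_closedBall,
      ← Finset.sum_neg_distrib, Real.exp_sum,
      ENNReal.ofReal_prod_of_nonneg fun _ _ => (Real.exp_pos _).le]
    refine Finset.prod_le_prod' fun n _ => ?_
    rw [← Measure.map_apply (hm n) measurableSet_closedBall, hg n]
    exact ball_lower _
  have hI := indep_iSup_of_disjoint (m := fun n => MeasurableSpace.comap (g n) inferInstance)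
    (fun n => (hm n).comap_le) hind (S := (s : Set (Lat d))) (T := (s : Set (Lat d))ᶜ)
    disjoint_compl_right
  have hAm : MeasurableSet[⨆ n ∈ (s : Set (Lat d)), MeasurableSpace.comap (g n) inferInstance]
      (⋂ n ∈ s, g n ⁻¹' closedBall (c n) 1) :=
    @meas_low d Ω (⨆ n ∈ (s : Set (Lat d)), MeasurableSpace.comap (g n) inferInstance) g s c 1
      fun n hn => Measurable.of_comap_le
        (le_iSup₂_of_le (f := fun n (_ : n ∈ (s : Set (Lat d))) =>
          MeasurableSpace.comap (g n) inferInstance) n hn le_rfl)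
  have hBm : MeasurableSet[⨆ n ∈ (s : Set (Lat d))ᶜ, MeasurableSpace.comap (g n) inferInstance]
      {ω | τ ω < ENNReal.ofReal ρ} := by
    have h1 := @meas_tail d Ω (⨆ n ∈ (s : Set (Lat d))ᶜ, MeasurableSpace.comap (g n) inferInstance)
      g s (fun n => ENNReal.ofReal (q n)) fun n hn => Measurable.of_comap_le
        (le_iSup₂_of_le (f := fun n (_ : n ∈ (s : Set (Lat d))ᶜ) =>
          MeasurableSpace.comap (g n) inferInstance) n hn le_rfl)
    exact h1 measurableSet_Iio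
  have hAB := (Indep_iff _ _ _).1 hI _ _ hAm hBm
  refine ⟨(⋂ n ∈ s, g n ⁻¹' closedBall (c n) 1) ∩ {ω | τ ω < ENNReal.ofReal ρ},
    (meas_low g s c 1 fun n _ => hm n).inter (hτm measurableSet_Iio), ?_, ?_⟩
  · rw [hAB, neg_add, Real.exp_add, ENNReal.ofReal_mul (Real.exp_pos _).le]
    exact mul_le_mul' hA hB
  rintro ω ⟨hω1, hω2⟩
  simp only [mem_iInter, mem_preimage, mem_closedBall, dist_eq_norm] at hω1
  have hω3 : τ ω < ENNReal.ofReal ρ := hω2
  have hnn : ∀ n, 0 ≤ (if n ∈ s then 0 else q n * ‖g n ω‖) := fun n => by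
    split_ifs
    · exact le_rfl
    · exact mul_nonneg (hq0 n) (norm_nonneg _)
  have hE : τ ω = ∑' n, ENNReal.ofReal (if n ∈ s then 0 else q n * ‖g n ω‖) := by
    refine tsum_congr fun n => ?_
    split_ifs
    · simp
    · rw [ENNReal.ofReal_mul (hq0 n), ofReal_norm]
  have hS : Summable fun n => if n ∈ s then 0 else q n * ‖g n ω‖ :=
    (ENNReal.summable_toReal (hE ▸ (hω3.trans ENNReal.ofReal_lt_top).ne)).congr fun n =>
      ENNReal.toReal_ofReal (hnn n)
  rw [hE, ← ENNReal.ofReal_tsum_of_nonneg hnn hS, ENNReal.ofReal_lt_ofReal_iff hρ] at hω3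
  have hle : ∀ n, q n * ‖g n ω - c n‖ ≤ q n + (if n ∈ s then 0 else q n * ‖g n ω‖) := fun n => by
    split_ifs with hn
    · rw [add_zero]
      exact mul_le_of_le_one_right (hq0 n) (hω1 n hn)
    · rw [hc n hn, sub_zero]
      linarith [hq0 n]
  have hS' := Summable.of_nonneg_of_le (fun n => mul_nonneg (hq0 n) (norm_nonneg _)) hle
    (hq.add hS)
  refine ⟨hS', (hS'.tsum_le_tsum hle (hq.add hS)).trans ?_⟩
  rw [hq.tsum_add hS]
  linarith

theorem le_add_exp {x a : ℝ} (hx : 0 ≤ x) (ha : 0 ≤ a) :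
    x ≤ a + Real.exp (-a ^ 2 / 2) * Real.exp (x ^ 2 / 2) := by
  rw [← Real.exp_add]
  rcases le_total x a with h | h
  · linarith [Real.exp_pos (-a ^ 2 / 2 + x ^ 2 / 2)]
  have h1 := Real.add_one_le_exp (-a ^ 2 / 2 + x ^ 2 / 2)
  nlinarith [sq_nonneg (x - a - 1), mul_nonneg ha (sub_nonneg.2 h)]

/-- Gaussian tail of the weighted sum `∑ q_n |g_n|`. -/
theorem tail_upper {q : Lat d → ℝ} (hq0 : ∀ n, 0 ≤ q n) (hq : Summable q) :
    ∃ A μ : ℝ, 0 < A ∧ 0 < μ ∧ ∀ (Ω : Type) [MeasurableSpace Ω] (P : Measure Ω)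
      (g : Lat d → Ω → ℂ), (∀ n, Measurable (g n)) → (∀ n, P.map (g n) = stdComplexGaussian) →
      ∀ a : ℝ, 0 < a → P {ω | (Summable fun n => q n * ‖g n ω‖) ∧
        A * a < ∑' n, q n * ‖g n ω‖} ≤ ENNReal.ofReal (μ / a * Real.exp (-a ^ 2 / 2)) := by
  set mom := ∫⁻ z, ENNReal.ofReal (Real.exp (‖z‖ ^ 2 / 2)) ∂stdComplexGaussian with hmom
  have hmomT : mom ≠ ∞ := exp_moment.ne
  have hm0 : 0 ≤ mom.toReal := ENNReal.toReal_nonneg
  have hQ : 0 ≤ ∑' n, q n := tsum_nonneg hq0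
  refine ⟨∑' n, q n + 1, (∑' n, q n) * mom.toReal + 1, by positivity, by positivity,
    fun Ω _ P g hm hg a ha => ?_⟩
  have h1 : ∀ n, Measurable fun ω =>
      ENNReal.ofReal (q n) * ENNReal.ofReal (Real.exp (‖g n ω‖ ^ 2 / 2)) := fun n => by
    have := hm n
    fun_prop
  set τ : Ω → ℝ≥0∞ := fun ω =>
    ∑' n, ENNReal.ofReal (q n) * ENNReal.ofReal (Real.exp (‖g n ω‖ ^ 2 / 2)) with hτ
  have hτi : ∫⁻ ω, τ ω ∂P = ENNReal.ofReal ((∑' n, q n) * mom.toReal) := by
    simp only [hτ]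
    rw [lintegral_tsum fun n => (h1 n).aemeasurable]
    have h2 : ∀ n, ∫⁻ ω, ENNReal.ofReal (q n) * ENNReal.ofReal (Real.exp (‖g n ω‖ ^ 2 / 2)) ∂P =
        ENNReal.ofReal (q n) * mom := fun n => by
      rw [lintegral_const_mul _ (by have := hm n; fun_prop), hmom, ← hg n,
        lintegral_map (by fun_prop) (hm n)]
    simp_rw [h2]
    rw [ENNReal.tsum_mul_right, ← ENNReal.ofReal_tsum_of_nonneg hq0 hq, ENNReal.ofReal_mul hQ,
      ENNReal.ofReal_toReal hmomT]
  have he := Real.exp_pos (-a ^ 2 / 2)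
  have hτm : Measurable τ := Measurable.tsum h1
  have h2 := meas_ge_le_lintegral_div (μ := P) hτm.aemeasurable
    (ε := ENNReal.ofReal (a / Real.exp (-a ^ 2 / 2))) (ENNReal.ofReal_pos.2 (by positivity)).ne'
    ENNReal.ofReal_ne_top
  refine le_trans (measure_mono ?_) (h2.trans ?_)
  · rintro ω ⟨a1, a2⟩
    change ENNReal.ofReal _ ≤ τ ω
    by_contra hc
    have a3 := not_le.1 hc
    have a4 : τ ω = ∑' n, ENNReal.ofReal (q n * Real.exp (‖g n ω‖ ^ 2 / 2)) :=
      tsum_congr fun n => (ENNReal.ofReal_mul (hq0 n)).symm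
    have hnn : ∀ n, 0 ≤ q n * Real.exp (‖g n ω‖ ^ 2 / 2) := fun n =>
      mul_nonneg (hq0 n) (Real.exp_pos _).le
    have hS : Summable fun n => q n * Real.exp (‖g n ω‖ ^ 2 / 2) :=
      (ENNReal.summable_toReal (a4 ▸ (a3.trans ENNReal.ofReal_lt_top).ne)).congr fun n =>
        ENNReal.toReal_ofReal (hnn n)
    rw [a4, ← ENNReal.ofReal_tsum_of_nonneg hnn hS, ENNReal.ofReal_lt_ofReal_iff (by positivity),
      lt_div_iff₀ he] at a3
    have a5 := a1.tsum_le_tsum (g := fun n => q n * a + q n * Real.exp (‖g n ω‖ ^ 2 / 2) *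
      Real.exp (-a ^ 2 / 2)) (fun n => by
        have := mul_le_mul_of_nonneg_left (le_add_exp (norm_nonneg (g n ω)) ha.le) (hq0 n)
        linarith) ((hq.mul_right _).add (hS.mul_right _))
    rw [(hq.mul_right _).tsum_add (hS.mul_right _), tsum_mul_right, tsum_mul_right] at a5
    linarith
  · rw [hτi, ← ENNReal.ofReal_div_of_pos (by positivity)]
    refine ENNReal.ofReal_le_ofReal ?_
    rw [div_div_eq_mul_div, div_mul_eq_mul_div]
    gcongr
    linarith

end Vale.Agent.N139X
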