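import Vale.Agent.N139X.Bridge
import Vale.Agent.N139X.Det
import Vale.Agent.N139X.Gauss

/-! Sizes of the bubbles, choice of scales, Sobolev against Wiener norms. -/

open Set Filter Topology MeasureTheory
open scoped NNReal ENNReal

namespace Vale.Agent.N139X

open Vale.Agent.P139 Vale.Agent.P139.A Vale.Agent.P139Z Vale.Agent.P139Z.Hk

variable {d k m : ℕ}

theorem sq_nonneg' (n : Lat d) : 0 ≤ nsq n := sqNorm_nonneg n

theorem sq_le {n : Lat d} {ρ : ℝ} (h : ∀ j, |(n j : ℝ)| ≤ ρ) : nsq n ≤ d * ρ ^ 2 := by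
  have := Finset.sum_le_card_nsmul Finset.univ (fun j => (n j : ℝ) ^ 2) (ρ ^ 2) fun j _ => by
    rw [← sq_abs]
    exact pow_le_pow_left₀ (abs_nonneg _) (h j) 2
  simpa [nsq] using this

theorem abs_le_norm (n : Lat d) (j : Fin d) : |(n j : ℝ)| ≤ ‖n‖ := by
  have := norm_le_pi_norm n j
  rwa [Int.norm_eq_abs] at this

theorem exists_box {ρ : ℝ} (hρ : 1 ≤ ρ) : ∃ S : Finset (Lat d), (S.card : ℝ) ≤ (3 * ρ) ^ d ∧
    (∀ n ∈ S, 1 + nsq n ≤ (1 + d) * ρ ^ 2) ∧ ∀ n : Lat d, ‖n‖ ≤ ρ → n ∈ S := by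
  have h0 : (0 : ℝ) ≤ ρ := by linarith
  have h1 := Nat.floor_le h0
  refine ⟨Fintype.piFinset fun _ => Finset.Icc (-(⌊ρ⌋₊ : ℤ)) ⌊ρ⌋₊, ?_, fun n hn => ?_,
    fun n hn => Fintype.mem_piFinset.2 fun j => ?_⟩
  · rw [Fintype.card_piFinset, Finset.prod_const, Finset.card_univ, Fintype.card_fin, Int.card_Icc,
      show ((⌊ρ⌋₊ : ℤ) + 1 - -(⌊ρ⌋₊ : ℤ)).toNat = 2 * ⌊ρ⌋₊ + 1 by omega]
    push_cast
    gcongr
    linarith
  · have h2 := sq_le (n := n) (ρ := ρ) fun j => by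
      have h3 := abs_le.2 (Finset.mem_Icc.1 (Fintype.mem_piFinset.1 hn j))
      have h4 : |(n j : ℝ)| ≤ (⌊ρ⌋₊ : ℝ) := by exact_mod_cast h3
      linarith
    nlinarith
  · have h2 := (abs_le_norm n j).trans hn
    have h3 : (n j).natAbs ≤ ⌊ρ⌋₊ := Nat.le_floor (by rwa [Nat.cast_natAbs, Int.cast_abs])
    rw [Finset.mem_Icc]
    omega

theorem bubble_norm {ψ : Lat d → ℂ} {M R lam b : ℝ} (hM : 0 < M) (hR : 1 ≤ R) (h0 : 0 < lam)
    (h1 : lam ≤ 1) (hψ : ∀ n, ‖ψ n‖ ≤ M * lam ^ ((d : ℝ) - b))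
    (hs : ∀ n, ψ n ≠ 0 → lam * ‖n‖ ≤ R) : ∃ S : Finset (Lat d), (∀ n ∉ S, ψ n = 0) ∧
      (S.card : ℝ) ≤ (3 * R) ^ d * lam ^ (-(d : ℝ)) ∧ ∀ s : ℝ, 0 ≤ s →
        ∑ n ∈ S, (1 + nsq n) ^ s * ‖ψ n‖ ^ 2 ≤
          (3 * R) ^ d * ((1 + d) * R ^ 2) ^ s * M ^ 2 * lam ^ ((d : ℝ) - 2 * b - 2 * s) := by
  obtain ⟨S, a1, a2, a3⟩ := exists_box (d := d) (ρ := R / lam)
    (by rw [le_div_iff₀ h0]; linarith)
  have a4 : (S.card : ℝ) ≤ (3 * R) ^ d * lam ^ (-(d : ℝ)) := by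
    rwa [Real.rpow_neg h0.le, Real.rpow_natCast, ← div_eq_mul_inv, ← div_pow, mul_div_assoc]
  refine ⟨S, fun n hn => by_contra fun h => hn (a3 n ?_), a4, fun s hs0 => ?_⟩
  · rw [le_div_iff₀ h0, mul_comm]
    exact hs n h
  have a5 := Finset.sum_le_card_nsmul S (fun n => (1 + nsq n) ^ s * ‖ψ n‖ ^ 2)
    (((1 + d) * R ^ 2) ^ s * lam ^ (-(2 * s)) * (M * lam ^ ((d : ℝ) - b)) ^ 2) fun n hn => by
      have b1 := sq_nonneg' n
      have b2 : ((1 + d) * (R / lam) ^ 2) ^ s = ((1 + d) * R ^ 2) ^ s * lam ^ (-(2 * s)) := by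
        rw [div_pow, ← mul_div_assoc, Real.div_rpow (by positivity) (by positivity),
          Real.rpow_neg h0.le, Real.rpow_mul h0.le, Real.rpow_two, div_eq_mul_inv]
      rw [← b2]
      gcongr
      exacts [a2 n hn, hψ n]
  refine a5.trans ?_
  rw [nsmul_eq_mul]
  refine (mul_le_mul_of_nonneg_right a4 (by positivity)).trans (le_of_eq ?_)
  rw [show (d : ℝ) - 2 * b - 2 * s = -d + -(2 * s) + (d - b) + (d - b) by ring, Real.rpow_add h0,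
    Real.rpow_add h0, Real.rpow_add h0]
  ring

theorem small {a a' b C C' ε δ X T lam₀ : ℝ} (ha : 0 < a) (ha' : 0 < a') (hb : 0 < b) (hε : 0 < ε)
    (hδ : 0 < δ) (hT : 0 < T) (h0 : 0 < lam₀) : ∃ lam : ℝ, 0 < lam ∧ lam ≤ lam₀ ∧
      C * lam ^ a < ε ∧ C' * lam ^ a' < ε ∧ X ≤ δ * lam ^ (-b) ∧ 2 * lam ^ 2 ≤ T := by
  have h : ∀ {e c η : ℝ}, 0 < e → 0 < η → ∀ᶠ x : ℝ in 𝓝[>] 0, c * x ^ e < η := by
    intro e c η he hη
    have h1 := ((Real.continuousAt_rpow_const 0 e (Or.inr he.le)).tendsto.const_mul c).mono_left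
      (nhdsWithin_le_nhds (s := Ioi 0))
    rw [Real.zero_rpow he.ne', mul_zero] at h1
    exact h1.eventually (gt_mem_nhds hη)
  obtain ⟨x, h1, h1', h2, h3, h4, h5⟩ := ((h (c := C) ha hε).and ((h (c := C') ha' hε).and
    ((h (c := X) hb hδ).and ((h (c := 2) two_pos hT).and
      ((h (c := 1) one_pos h0).and self_mem_nhdsWithin))))).exists
  have h6 : 0 < x := h5
  rw [Real.rpow_two] at h3
  rw [Real.rpow_one, one_mul] at h4
  refine ⟨x, h6, h4.le, h1, h1', ?_, h3.le⟩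
  rw [Real.rpow_neg h6.le, ← div_eq_mul_inv, le_div_iff₀ (Real.rpow_pos_of_pos h6 _)]
  exact h2.le

theorem parseval (f : Fn d) : HasSum (fun n => ‖hat f n‖ ^ 2) (∫ x, ‖f x‖ ^ 2 ∂vol d) := by
  have h := Vale.Agent.P139L.hasSum_co (Vale.Agent.P139L.toL f)
  have h2 : ‖Vale.Agent.P139L.toL f‖ ^ 2 = ∫ x, ‖f x‖ ^ 2 ∂vol d := by
    have h3 := inner_self_eq_norm_sq_to_K (𝕜 := ℂ) (Vale.Agent.P139L.toL f)
    rw [Vale.Agent.P139L.toL, ContinuousMap.inner_toLp] at h3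
    simp only [Complex.mul_conj, Complex.normSq_eq_norm_sq] at h3
    rw [integral_complex_ofReal] at h3
    refine Complex.ofReal_injective (Eq.trans ?_ h3.symm)
    push_cast
    rfl
  rwa [co_toL, h2] at h

theorem pot_le {f : Fn d} {S : Finset (Lat d)} {A L : ℝ} (h : ∀ n ∉ S, hat f n = 0)
    (hA : ∑ n ∈ S, ‖hat f n‖ ≤ A) (hL : ∑ n ∈ S, ‖hat f n‖ ^ 2 ≤ L) (j : ℕ) :
    ∫ x, ‖f x‖ ^ (j + 2) ∂vol d ≤ A ^ j * L := by
  have h1 : HasSum (fun n => ‖hat f n‖) (∑ n ∈ S, ‖hat f n‖) :=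
    hasSum_sum_of_ne_finset_zero fun n hn => by simp [h n hn]
  have h2 : HasSum (fun n => ‖hat f n‖ ^ 2) (∑ n ∈ S, ‖hat f n‖ ^ 2) :=
    hasSum_sum_of_ne_finset_zero fun n hn => by simp [h n hn]
  obtain ⟨F, e, h3⟩ := exists_fn h1.summable
  rw [hat_inj e] at h3
  have h4 : ∀ x, ‖f x‖ ≤ A := fun x => le_trans (HasSum.norm_le_of_bounded (h3 x) h1 fun n => by
    rw [norm_mul]
    exact mul_le_of_le_one_right (norm_nonneg _) (Vale.Agent.P139L.norm_ech n x).le) hA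
  have h5 : 0 ≤ A := (norm_nonneg _).trans (h4 0)
  have h6 : Integrable (fun x => ‖f x‖ ^ 2) (vol d) :=
    (f.continuous.norm.pow 2).integrable_of_hasCompactSupport (HasCompactSupport.of_compactSpace _)
  refine (integral_mono_of_nonneg (Eventually.of_forall fun x => by positivity)
    (h6.const_mul (A ^ j)) (Eventually.of_forall fun x => ?_)).trans ?_
  · simp only [pow_add]
    gcongr
    exact h4 x
  · rw [integral_const_mul, (parseval f).unique h2]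
    gcongr

theorem wiener {l : ℕ} (hl : d < 2 * l) (j : ℕ) : ∃ C : ℝ, 0 < C ∧ ∀ a : Lat d → ℂ,
    MemSobolev (j + l) a → (Summable fun n => W j n * ‖a n‖) ∧
      ∑' n, W j n * ‖a n‖ ≤ C * √(sobolevSq (j + l) a) := by
  refine ⟨2 ^ j * CE d l, mul_pos (by positivity) CE_pos, fun a ha => ?_⟩
  have e : ∀ n, (1 + sqNorm n) ^ l * ‖(om j n : ℂ) * a n‖ ^ 2 =
      (1 + sqNorm n) ^ (j + l) * ‖a n‖ ^ 2 := fun n => by
    rw [norm_mul, Complex.norm_real, Real.norm_of_nonneg (om_pos n).le, mul_pow, om_sq, pow_add]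
    ring
  have h1 : MemSobolev l fun n => (om j n : ℂ) * a n := ha.congr fun n => (e n).symm
  have h2 := tsum_cf_le hl (mkH _ h1)
  have h3 := sob_cf (k := l) (mkH _ h1)
  have h4 := Persist.summable_of_memSobolev hl h1
  rw [funext (cf_mkH _ h1)] at h2 h3
  have h5 : ‖mkH _ h1‖ = √(sobolevSq (j + l) a) := by
    rw [← Real.sqrt_sq (norm_nonneg (mkH _ h1)), ← h3]
    exact congrArg _ (tsum_congr e)
  have h6 : ∀ n, W j n * ‖a n‖ ≤ 2 ^ j * ‖(om j n : ℂ) * a n‖ := fun n => by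
    rw [norm_mul, Complex.norm_real, Real.norm_of_nonneg (om_pos n).le, ← mul_assoc]
    have := Prob.W_le_sqrt (k := j) n
    rw [Real.rpow_natCast] at this
    exact mul_le_mul_of_nonneg_right this (norm_nonneg _)
  have h7 := Summable.of_nonneg_of_le (fun n => mul_nonneg (W_pos n).le (norm_nonneg _)) h6
    (h4.mul_left _)
  refine ⟨h7, (h7.tsum_le_tsum h6 (h4.mul_left _)).trans ?_⟩
  rw [tsum_mul_left, mul_assoc, ← h5]
  gcongr

theorem sob_of_wiener {b : Lat d → ℂ} {s η : ℝ} (hs : s ≤ k)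
    (hb : Summable fun n => W k n * ‖b n‖) (h : ∑' n, W k n * ‖b n‖ ≤ η) :
    (Summable fun n => (1 + nsq n) ^ s * ‖b n‖ ^ 2) ∧
      ∑' n, (1 + nsq n) ^ s * ‖b n‖ ^ 2 ≤ (1 + d) ^ k * η ^ 2 := by
  have h0 : ∀ n, 0 ≤ W k n * ‖b n‖ := fun n => mul_nonneg (W_pos n).le (norm_nonneg _)
  have hη : 0 ≤ η := (tsum_nonneg h0).trans h
  have h1 : ∀ n, (1 + nsq n) ^ s * ‖b n‖ ^ 2 ≤ (1 + d) ^ k * η * (W k n * ‖b n‖) := fun n => by
    have a0 := sq_nonneg' n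
    have a1 := sq_le (abs_le_norm n)
    have a2 : 1 + nsq n ≤ (1 + d) * (1 + ‖n‖) ^ 2 := by
      have := norm_nonneg n
      have : (0 : ℝ) ≤ d := Nat.cast_nonneg d
      nlinarith [mul_nonneg this (norm_nonneg n)]
    have a3 : (1 + nsq n) ^ s ≤ (1 + d) ^ k * W k n ^ 2 := by
      refine (Real.rpow_le_rpow_of_exponent_le (by linarith) hs).trans ?_
      rw [Real.rpow_natCast, W, ← pow_mul, mul_comm k 2, pow_mul, ← mul_pow]
      gcongr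
    have a4 : W k n * ‖b n‖ ≤ η := (hb.le_tsum n fun j _ => h0 j).trans h
    calc _ ≤ (1 + d) ^ k * W k n ^ 2 * ‖b n‖ ^ 2 := by gcongr
      _ = (1 + d) ^ k * (W k n * ‖b n‖) * (W k n * ‖b n‖) := by ring
      _ ≤ _ := by gcongr; exact h0 n
  have h2 := Summable.of_nonneg_of_le (term_nonneg s b) h1 (hb.mul_left _)
  refine ⟨h2, (h2.tsum_le_tsum h1 (hb.mul_left _)).trans ?_⟩
  rw [tsum_mul_left, pow_two, ← mul_assoc]
  gcongr

end Vale.Agent.N139X
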