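import Vale.Agent.N139X.Est

/-! Blow-up near every datum; the law of the lifespan at small times. -/

open Set Filter Topology MeasureTheory ProbabilityTheory
open scoped NNReal ENNReal

namespace Vale.Agent.N139X

open Vale.Agent.P139 Vale.Agent.P139.A Vale.Agent.P139Z Vale.Agent.P139Z.Hk Vale.Agent.N139

variable {d k m K : ℕ}

/-- The conclusion of `bubble`. -/
def Bub (d m k : ℕ) : Prop :=
  ∃ δ lam₀ M R : ℝ, 0 < δ ∧ 0 < lam₀ ∧ lam₀ ≤ 1 ∧ 0 < M ∧ 1 ≤ R ∧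
    ∀ lam : ℝ, 0 < lam → lam ≤ lam₀ → ∃ ψ : Lat d → ℂ,
      (∀ n, ‖ψ n‖ ≤ M * lam ^ ((d : ℝ) - (m : ℝ)⁻¹)) ∧ (∀ n, ψ n ≠ 0 → lam * ‖n‖ ≤ R) ∧
      ∀ a : Lat d → ℂ, (Summable fun n => W (k + 1) n * ‖a n‖) →
        ∑' n, W k n * ‖a n - ψ n‖ ≤ δ * lam ^ (-(m : ℝ)⁻¹) → ∀ k' : ℕ, d < 2 * k' →
        lifespan d (2 * m + 1) k' a ≤ ENNReal.ofReal (2 * lam ^ 2)

theorem exists_bub : ∃ m₁ : ℕ, ∀ m : ℕ, m₁ ≤ m → 1 ≤ m → ∃ K : ℕ, 30 ≤ K ∧ Bub 12 m K := by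
  obtain ⟨m₁, h⟩ := all_modeStable
  refine ⟨m₁, fun m h1 hm => ?_⟩
  obtain ⟨β, G, hG, hs⟩ := h m h1
  obtain ⟨B, hΛ, hQ, hD, hX⟩ := exists_bg hm hG
  have hP : B.PMS 30 := pms_of_modeStable hG.smooth hs B hΛ hQ hD hX
  obtain ⟨k₀, hk₀⟩ := exists_nat_ge (8 * B.K0 + 8)
  have hk : 8 * B.K0 + 8 ≤ ((max 30 k₀ : ℕ) : ℝ) :=
    hk₀.trans (by exact_mod_cast le_max_right 30 k₀)
  exact ⟨_, le_max_left _ _, bubble B hm hk (B.lin_of_pms hm hP (le_max_left _ _) hk)⟩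

theorem scr_eq (d m : ℕ) : scr d (2 * m + 1) = d / 2 - (m : ℝ)⁻¹ := by
  unfold scr
  push_cast
  rw [add_sub_cancel_right, div_mul_cancel_left₀ two_ne_zero]

theorem fin_sum {S : Finset (Lat d)} {ψ : Lat d → ℂ} (h : ∀ n ∉ S, ψ n = 0) (c : Lat d → ℝ)
    {j : ℕ} (hj : j ≠ 0) : HasSum (fun n => c n * ‖ψ n‖ ^ j) (∑ n ∈ S, c n * ‖ψ n‖ ^ j) :=
  hasSum_sum_of_ne_finset_zero fun n hn => by simp [h n hn, hj]

theorem fin_sum1 {S : Finset (Lat d)} {ψ : Lat d → ℂ} (h : ∀ n ∉ S, ψ n = 0) (c : Lat d → ℝ) :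
    Summable fun n => c n * ‖ψ n‖ := by simpa using (fin_sum h c one_ne_zero).summable

theorem W_le_succ (n : Lat d) : W k n ≤ W (k + 1) n :=
  pow_le_pow_right₀ (by linarith [norm_nonneg n]) (Nat.le_succ k)

theorem W_nn (a : Lat d → ℂ) (n : Lat d) : 0 ≤ W k n * ‖a n‖ :=
  mul_nonneg (W_pos n).le (norm_nonneg _)

theorem W_add {a b : Lat d → ℂ} (ha : Summable fun n => W k n * ‖a n‖)
    (hb : Summable fun n => W k n * ‖b n‖) : (Summable fun n => W k n * ‖a n + b n‖) ∧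
      ∑' n, W k n * ‖a n + b n‖ ≤ ∑' n, W k n * ‖a n‖ + ∑' n, W k n * ‖b n‖ := by
  have h : ∀ n, W k n * ‖a n + b n‖ ≤ W k n * ‖a n‖ + W k n * ‖b n‖ := fun n => by
    rw [← mul_add]
    exact mul_le_mul_of_nonneg_left (norm_add_le _ _) (W_pos n).le
  have h1 := Summable.of_nonneg_of_le (W_nn fun n => a n + b n) h (ha.add hb)
  exact ⟨h1, (h1.tsum_le_tsum h (ha.add hb)).trans_eq (ha.tsum_add hb)⟩

theorem W_down {a : Lat d → ℂ} (ha : Summable fun n => W (k + 1) n * ‖a n‖) :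
    (Summable fun n => W k n * ‖a n‖) ∧ ∑' n, W k n * ‖a n‖ ≤ ∑' n, W (k + 1) n * ‖a n‖ := by
  have h : ∀ n, W k n * ‖a n‖ ≤ W (k + 1) n * ‖a n‖ := fun n =>
    mul_le_mul_of_nonneg_right (W_le_succ n) (norm_nonneg _)
  have h1 := Summable.of_nonneg_of_le (W_nn a) h ha
  exact ⟨h1, h1.tsum_le_tsum h ha⟩

/-- One small smooth function destroys every datum of a large ball. -/
theorem destroy (hm : 1 ≤ m) (h : Bub d m K) {l : ℕ} (hl : d < 2 * l) {s ε T r : ℝ} (hs0 : 0 ≤ s)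
    (hs : s < scr d (2 * m + 1)) (hc : 1 < scr d (2 * m + 1)) (hε : 0 < ε) (hT : 0 < T) :
    ∃ ψ : Fn d, (∀ j : ℕ, Hs j ψ < ⊤) ∧ Hs s ψ < ENNReal.ofReal ε ∧
      ∫ x, ‖ψ x‖ ^ (2 * m + 1 + 1) ∂vol d < ε ∧ ∀ w : Fn d,
        Hs (K + 1 + l : ℕ) w ≤ ENNReal.ofReal r → ∀ k, d < 2 * k →
          life (2 * m + 1) k (w + ψ) ≤ ENNReal.ofReal T := by
  obtain ⟨δ, lam₀, M, R, hδ, h0, h1, hM, hR, H⟩ := h
  obtain ⟨C, hC, hW⟩ := wiener hl (K + 1)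
  have hm0 : (0 : ℝ) < (m : ℝ)⁻¹ := by positivity
  rw [scr_eq] at hs hc
  obtain ⟨lam, a0, a1, a2, a5, a3, a4⟩ := small (a := (d : ℝ) - 2 * (m : ℝ)⁻¹ - 2 * s)
    (a' := -2 + ((d : ℝ) - 2 * (m : ℝ)⁻¹ - 2 * 0))
    (C := (3 * R) ^ d * ((1 + d) * R ^ 2) ^ s * M ^ 2)
    (C' := ((3 * R) ^ d * M) ^ (2 * m) * ((3 * R) ^ d * ((1 + d) * R ^ 2) ^ (0 : ℝ) * M ^ 2))
    (X := C * √r) (by linarith) (by linarith) hm0 hε hδ hT h0
  obtain ⟨ψ, b1, b2, b3⟩ := H lam a0 a1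
  obtain ⟨S, c1, c2, c3⟩ := bubble_norm hM hR a0 (a1.trans h1) b1 b2
  obtain ⟨Ψ, e, -⟩ := exists_fn (c := ψ) (by simpa using fin_sum1 c1 fun _ => 1)
  have f1 := fun s : ℝ => fin_sum c1 (fun n => (1 + nsq n) ^ s) two_ne_zero
  refine ⟨Ψ, fun j => Hs_lt_top.2 (e ▸ (f1 j).summable), ?_, ?_, fun w hw k hk => ?_⟩
  · rw [Hs_eq (e ▸ (f1 s).summable), e, (f1 s).tsum_eq, ENNReal.ofReal_lt_ofReal_iff hε]
    exact (c3 s hs0).trans_lt a2
  · have g1 : ∑ n ∈ S, ‖ψ n‖ ≤ (3 * R) ^ d * M * lam ^ (-(m : ℝ)⁻¹) := by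
      refine (Finset.sum_le_card_nsmul S _ _ fun n _ => b1 n).trans ?_
      rw [nsmul_eq_mul]
      refine (mul_le_mul_of_nonneg_right c2 (by positivity)).trans (le_of_eq ?_)
      rw [show -(m : ℝ)⁻¹ = -d + (d - (m : ℝ)⁻¹) by ring, Real.rpow_add a0]
      ring
    have g2 := c3 0 le_rfl
    simp only [Real.rpow_zero (1 + nsq _), one_mul] at g2
    have g3 : (lam ^ (-(m : ℝ)⁻¹)) ^ (2 * m) = lam ^ (-2 : ℝ) := by
      rw [← Real.rpow_natCast, ← Real.rpow_mul a0.le]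
      congr 1
      push_cast
      field_simp
    refine (pot_le (e ▸ c1) (e ▸ g1) (e ▸ g2) (2 * m)).trans_lt (lt_of_eq_of_lt ?_ a5)
    rw [mul_pow _ (lam ^ _), g3, Real.rpow_add a0]
    ring
  have g1 := mem_iff.1 (hw.trans_lt ENNReal.ofReal_lt_top)
  obtain ⟨g2, g3⟩ := hW _ g1
  have g4 : √(sobolevSq (K + 1 + l) (hat w)) ≤ √r := by
    rw [Hs_nat g1, ENNReal.ofReal_le_ofReal_iff'] at hw
    exact hw.elim Real.sqrt_le_sqrt fun h => (Real.sqrt_eq_zero'.2 h).trans_le (Real.sqrt_nonneg _)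
  refine (life_le hk _).trans ((b3 _ ?_ ?_ k hk).trans (ENNReal.ofReal_le_ofReal a4))
  · simp only [hat_add, e]
    exact (W_add g2 (fin_sum1 c1 _)).1
  · simp only [hat_add, e, add_sub_cancel_right]
    exact (W_down g2).2.trans (g3.trans ((mul_le_mul_of_nonneg_left g4 hC.le).trans a3))

variable {Ω : Type} [MeasurableSpace Ω] {P : Measure Ω} {g : Lat d → Ω → ℂ} {α : ℝ}

theorem Gauss.law (h : Gauss P g) (n : Lat d) : P.map (g n) = stdComplexGaussian :=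
  (h.2.2.2 n).trans std_eq.symm

omit [MeasurableSpace Ω] in
theorem Datum.hat_eq {o : Ω} {f : Fn d} (h : Datum g α k o f) : hat f = datum g α o :=
  hat_of_hasSum h.1

omit [MeasurableSpace Ω] in
theorem exists_datum (hk : d < 2 * k) {o : Ω} (h : MemSobolev k (datum g α o)) :
    ∃ f, Datum g α k o f := by
  obtain ⟨f, h1, h2⟩ := exists_fn (Persist.summable_of_memSobolev hk h)
  exact ⟨f, h2, mem_iff.2 (h1 ▸ h)⟩

theorem ae_datum (h : Gauss P g) (hk : Adm d k α) : ∀ᵐ o ∂P, ∃ f, Datum g α k o f := by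
  have := h.1
  filter_upwards [ae_memSobolev P g h.2.1 h.law hk.2] with o ho using exists_datum hk.1 ho

theorem cut (h : Gauss P g) (hk : Adm d k α) {E : Set Ω} (hE : MeasurableSet E) :
    ∃ E', MeasurableSet E' ∧ P E' = P E ∧ ∀ o ∈ E', o ∈ E ∧ ∃ f, Datum g α k o f := by
  obtain ⟨N, h1, h2, h3⟩ := exists_measurable_superset_of_null (ae_iff.1 (ae_datum h hk))
  exact ⟨E \ N, hE.diff h2, measure_sdiff_null h3, fun o ho =>
    ⟨ho.1, by_contra fun h' => ho.2 (h1 h')⟩⟩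

theorem w_sq (α : ℝ) (n : Lat d) : (√(1 + sqNorm n) ^ (-α)) ^ 2 = ((1 + nsq n) ^ α)⁻¹ := by
  have h := sq_nonneg' n
  rw [← sq_eq, ← Real.rpow_natCast, ← Real.rpow_mul (Real.sqrt_nonneg _), mul_comm,
    Real.rpow_mul (Real.sqrt_nonneg _), Real.rpow_natCast, Real.sq_sqrt (by linarith),
    Real.rpow_neg (by linarith)]

theorem w_anti {α β : ℝ} (h : β ≤ α) (n : Lat d) :
    √(1 + sqNorm n) ^ (-α) ≤ √(1 + sqNorm n) ^ (-β) :=
  Real.rpow_le_rpow_of_exponent_le (Real.le_sqrt_of_sq_le (by linarith [sqNorm_nonneg n]))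
    (neg_le_neg h)

/-- Lower bound for the probability of early blow-up. -/
theorem lower (hm : 1 ≤ m) (h : Bub d m K) {β : ℝ} (hβ : ((K + 1 : ℕ) : ℝ) + d < β) :
    ∃ B : ℝ, 0 < B ∧ ∀ α : ℝ, β ≤ α → ∀ (Ω : Type) [MeasurableSpace Ω] (P : Measure Ω)
      (g : Lat d → Ω → ℂ), Gauss P g → ∀ k, Adm d k α → ∀ T ∈ Ioc (0 : ℝ) 1,
        ∃ E ⊆ Blow g α (2 * m + 1) k T, MeasurableSet E ∧
          ENNReal.ofReal (Real.exp (-(B ^ α * T ^ (scr d (2 * m + 1) - α)))) ≤ P E := by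
  obtain ⟨δ, lam₀, M, R, hδ, h0, h1, hM, hR, H⟩ := h
  have hm0 : (0 : ℝ) < (m : ℝ)⁻¹ := by positivity
  have hm1 : (m : ℝ)⁻¹ ≤ 1 := inv_le_one_of_one_le₀ (by exact_mod_cast hm)
  obtain ⟨ρ, hρ, HE⟩ := event_lower (q := fun n : Lat d => W (K + 1) n * √(1 + sqNorm n) ^ (-β))
    (fun n => mul_nonneg (W_pos n).le (Prob.w_pos β n).le) (Prob.summable_q hβ)
  obtain ⟨l, a0, a1, -, -, a3, a4⟩ :=
    small (C := 0) (C' := 0) (X := ρ) one_pos one_pos hm0 one_pos hδ one_pos h0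
  have hd : (0 : ℝ) ≤ d := Nat.cast_nonneg d
  have hK : (1 : ℝ) ≤ (K + 1 : ℕ) := by exact_mod_cast Nat.le_add_left 1 K
  obtain ⟨A, hA⟩ : ∃ A : ℝ, A = 2 * ((3 * R) ^ d * M ^ 2) + 2 * (3 * R) ^ d + 1 := ⟨_, rfl⟩
  obtain ⟨D, hD⟩ : ∃ D : ℝ, D = (1 + d) * R ^ 2 := ⟨_, rfl⟩
  have hR0 : 0 < R := by linarith
  have hA1 : 1 ≤ A := by rw [hA]; exact le_add_of_nonneg_left (by positivity)
  have hD1 : 1 ≤ D := by rw [hD]; nlinarith
  refine ⟨A * D * l ^ (-4 : ℝ), by positivity, fun α hα Ω _ P g hg k hk T ⟨hT0, hT1⟩ => ?_⟩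
  have hw := fun n : Lat d => Prob.w_pos α n
  obtain ⟨e, he⟩ : ∃ e : ℝ, e = (d : ℝ) - 2 * (m : ℝ)⁻¹ - 2 * α := ⟨_, rfl⟩
  obtain ⟨C, hC⟩ : ∃ C : ℝ, C = (3 * R) ^ d * D ^ α * M ^ 2 := ⟨_, rfl⟩
  have hB : (2 * C + 2 * (3 * R) ^ d + 1) * l ^ e ≤ (A * D * l ^ (-4 : ℝ)) ^ α := by
    have u1 : 1 ≤ D ^ α := Real.one_le_rpow hD1 (by linarith)
    have u2 : A ≤ A ^ α := Real.self_le_rpow_of_one_le hA1 (by linarith)
    have u3 : l ^ e ≤ (l ^ (-4 : ℝ)) ^ α := by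
      rw [← Real.rpow_mul a0.le]
      exact Real.rpow_le_rpow_of_exponent_ge a0 (a1.trans h1) (by linarith)
    have u4 : 2 * C + 2 * (3 * R) ^ d + 1 ≤ A * D ^ α := by
      have : 0 ≤ (2 * (3 * R) ^ d + 1) * (D ^ α - 1) := mul_nonneg (by positivity) (by linarith)
      rw [hA, hC]
      linarith
    rw [Real.mul_rpow (by positivity) (by positivity), Real.mul_rpow (by positivity) (by positivity)]
    refine mul_le_mul (u4.trans ?_) u3 (by positivity) (by positivity)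
    gcongr
  have := hg.1
  have t0 : 0 < √T := Real.sqrt_pos.2 hT0
  have t1 : l * √T ≤ l := mul_le_of_le_one_right a0.le (Real.sqrt_le_one.2 hT1)
  have t2 : 0 < l * √T := by positivity
  have t3 : l * √T ≤ 1 := t1.trans (a1.trans h1)
  obtain ⟨ψ, b1, b2, b3⟩ := H _ t2 (t1.trans a1)
  obtain ⟨S, c1, c2, c3⟩ := bubble_norm hM hR t2 t3 b1 b2
  obtain ⟨E, e1, e2, e3⟩ := HE Ω P g hg.2.1 hg.2.2.1 hg.law S
    (fun n => ψ n / (√(1 + sqNorm n) ^ (-α) : ℝ)) fun n hn => by rw [c1 n hn, zero_div]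
  obtain ⟨E', f1, f2, f3⟩ := cut hg hk e1
  refine ⟨E', fun o ho => ?_, f1, f2 ▸ le_trans (ENNReal.ofReal_le_ofReal ?_) e2⟩
  · obtain ⟨g1, f, hf⟩ := f3 o ho
    obtain ⟨g2', g3'⟩ := e3 o g1
    have e0 : ∀ n, W (K + 1) n * √(1 + sqNorm n) ^ (-α) *
        ‖g n o - ψ n / (√(1 + sqNorm n) ^ (-α) : ℝ)‖ ≤ W (K + 1) n * √(1 + sqNorm n) ^ (-β) *
        ‖g n o - ψ n / (√(1 + sqNorm n) ^ (-α) : ℝ)‖ := fun n =>
      mul_le_mul_of_nonneg_right (mul_le_mul_of_nonneg_left (w_anti hα n) (W_pos n).le)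
        (norm_nonneg _)
    have g2 := Summable.of_nonneg_of_le (fun n => mul_nonneg (mul_nonneg (W_pos n).le (hw n).le)
      (norm_nonneg _)) e0 g2'
    have g3 := (g2.tsum_le_tsum e0 g2').trans g3'
    have e : ∀ n, W (K + 1) n * √(1 + sqNorm n) ^ (-α) *
        ‖g n o - ψ n / (√(1 + sqNorm n) ^ (-α) : ℝ)‖ = W (K + 1) n * ‖datum g α o n - ψ n‖ :=
      fun n => by
        have : ((√(1 + sqNorm n) ^ (-α) : ℝ) : ℂ) ≠ 0 := by exact_mod_cast (hw n).ne'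
        have e' : datum g α o n - ψ n = (√(1 + sqNorm n) ^ (-α) : ℝ) *
            (g n o - ψ n / (√(1 + sqNorm n) ^ (-α) : ℝ)) := by
          rw [mul_sub, mul_div_cancel₀ _ this, mul_comm _ (g n o)]
          rfl
        rw [e', norm_mul, Complex.norm_real, Real.norm_of_nonneg (hw n).le, mul_assoc]
    simp only [e] at g2 g3
    refine ⟨f, hf, (life_le hk.1 f).trans ?_⟩
    rw [hf.hat_eq]
    refine (b3 _ ?_ ?_ k hk.1).trans (ENNReal.ofReal_le_ofReal ?_)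
    · simpa only [sub_add_cancel] using (W_add g2 (fin_sum1 c1 _)).1
    · refine (W_down g2).2.trans (g3.trans (a3.trans ?_))
      exact mul_le_mul_of_nonneg_left
        (Real.rpow_le_rpow_of_nonpos t2 t1 (by linarith)) hδ.le
    · rw [mul_pow, Real.sq_sqrt hT0.le]
      nlinarith
  rw [Real.exp_le_exp, neg_le_neg_iff]
  have g1 : ∑ n ∈ S, (2 * ‖ψ n / (√(1 + sqNorm n) ^ (-α) : ℝ)‖ ^ 2 + 2 : ℝ) =
      2 * ∑ n ∈ S, (1 + nsq n) ^ α * ‖ψ n‖ ^ 2 + (2 : ℝ) * (S.card : ℝ) := by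
    rw [Finset.sum_add_distrib, Finset.sum_const, nsmul_eq_mul, Finset.mul_sum, mul_comm _ (2 : ℝ)]
    congr 1
    refine Finset.sum_congr rfl fun n _ => ?_
    rw [norm_div, Complex.norm_real, Real.norm_of_nonneg (hw n).le, div_pow, w_sq, div_inv_eq_mul,
      mul_comm (_ ^ 2)]
  have g2 := c3 α (by linarith)
  rw [← he, ← hD, ← hC] at g2
  have g3 : (l * √T) ^ (-(d : ℝ)) ≤ (l * √T) ^ e :=
    Real.rpow_le_rpow_of_exponent_ge t2 t3 (by linarith)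
  have g4 : 1 ≤ (l * √T) ^ e := Real.one_le_rpow_of_pos_of_le_one_of_nonpos t2 t3 (by linarith)
  have g5 : l ^ e * T ^ (scr d (2 * m + 1) - α) = (l * √T) ^ e := by
    rw [Real.mul_rpow a0.le t0.le, Real.sqrt_eq_rpow, ← Real.rpow_mul hT0.le, scr_eq, he]
    congr 2
    ring
  have g6 := c2.trans (mul_le_mul_of_nonneg_left g3 (by positivity))
  refine le_trans ?_ (mul_le_mul_of_nonneg_right hB (by positivity))
  rw [g1, mul_assoc, g5]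
  linarith

/-- Upper bound for the probability of early blow-up. -/
theorem upper (hm : 1 ≤ m) {β : ℝ} (hβ : (d : ℝ) < β) :
    ∃ c C : ℝ, 0 < c ∧ 0 < C ∧ ∀ α : ℝ, β ≤ α → ∀ (Ω : Type) [MeasurableSpace Ω] (P : Measure Ω)
      (g : Lat d → Ω → ℂ), Gauss P g → ∀ k, d < 2 * k → ∀ T ∈ Ioc (0 : ℝ) 1,
        P (Blow g α (2 * m + 1) k T) ≤
          ENNReal.ofReal (C * Real.exp (-(c * T ^ (-(m : ℝ)⁻¹)))) := by
  have hm0 : (0 : ℝ) < (m : ℝ)⁻¹ := by positivity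
  have hq := Prob.summable_q (d := d) (k := 0) (α := β) (by simpa using hβ)
  simp only [W, pow_zero, one_mul] at hq
  obtain ⟨A, μ, hA, hμ, H⟩ := tail_upper (fun n => (Prob.w_pos β n).le) hq
  refine ⟨(1 / (8 * A)) ^ 2 / 2, μ * (8 * A), by positivity, by positivity,
    fun α hα Ω _ P g hg k hk T ⟨hT0, hT1⟩ => ?_⟩
  obtain ⟨x, hx⟩ : ∃ x : ℝ, x = T ^ (-(m : ℝ)⁻¹ / 2) := ⟨_, rfl⟩
  have x1 : 1 ≤ x := hx ▸ Real.one_le_rpow_of_pos_of_le_one_of_nonpos hT0 hT1 (by linarith)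
  have x2 : x ^ 2 = T ^ (-(m : ℝ)⁻¹) := by
    rw [hx, ← Real.rpow_natCast, ← Real.rpow_mul hT0.le]
    congr 1
    push_cast
    ring
  have x3 : x ^ (2 * m) = T⁻¹ := by
    rw [pow_mul, x2, ← Real.rpow_natCast, ← Real.rpow_mul hT0.le, neg_mul,
      inv_mul_cancel₀ (by positivity), Real.rpow_neg_one]
  refine le_trans (measure_mono_ae ?_) ((H Ω P g hg.2.1 hg.law (x / (8 * A))
    (by positivity)).trans (ENNReal.ofReal_le_ofReal ?_))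
  · filter_upwards [Prob.ae_summable_q hg.2.1 hg.law (fun n => (Prob.w_pos β n).le) hq] with o g2
    rintro ⟨f, hf, hT⟩
    have g1 := mem_iff.1 hf.2
    refine ⟨g2, not_le.1 fun hc' => ?_⟩
    have hc : ∑' n, ‖hat f n‖ ≤ A * (x / (8 * A)) := by
      refine ((Persist.summable_of_memSobolev hk g1).tsum_le_tsum (fun n => ?_) g2).trans hc'
      rw [hf.hat_eq, Prob.norm_datum]
      exact mul_le_mul_of_nonneg_right (w_anti hα n) (norm_nonneg _)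
    have g3 := (lifespan_lower (m := m) hk g1 (by positivity) hc).trans ((life_eq hk hf.2).ge.trans hT)
    rw [ENNReal.ofReal_le_ofReal_iff hT0.le,
      show 2 * (A * (x / (8 * A))) = x / 4 by field_simp; ring, div_pow, x3] at g3
    have g4 : (4 : ℝ) ^ 2 ≤ 4 ^ (2 * m) := pow_le_pow_right₀ (by norm_num) (by omega)
    have g5 : 1 / (4 * (T⁻¹ / 4 ^ (2 * m))) = 4 ^ (2 * m) * T / 4 := by field_simp
    nlinarith
  · rw [← x2, show -(x / (8 * A)) ^ 2 / 2 = -((1 / (8 * A)) ^ 2 / 2 * x ^ 2) by ring,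
      div_div_eq_mul_div]
    gcongr
    exact div_le_self (by positivity) x1

/-- The doubly exponential upper bound in `α`. -/
theorem upper' (hm : 1 ≤ m) (hk : d < 2 * k) : ∃ κ α₂ : ℝ, 0 < κ ∧ ∀ α : ℝ, α₂ ≤ α →
    ∀ (Ω : Type) [MeasurableSpace Ω] (P : Measure Ω) (g : Lat d → Ω → ℂ), Gauss P g →
      P (Blow g α (2 * m + 1) k (2 ^ (α / 4))) ≤ ENNReal.ofReal (Real.exp (-2 ^ (κ * α))) := by
  obtain ⟨κ, hκ, α₁, H⟩ := tail_main (d := d) (p := 2 * m + 1) ⟨m, rfl⟩ (by omega) k (θ := 1 / 3)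
    (by norm_num)
  refine ⟨κ, max α₁ 1, hκ, fun α hα Ω _ P g hg => le_trans (measure_mono ?_)
    (H P g hg.2.1 hg.law α ((le_max_left _ _).trans hα))⟩
  rintro o ⟨f, hf, hT⟩
  rw [life_eq hk hf.2, hf.hat_eq] at hT
  refine hT.trans_lt ((ENNReal.ofReal_lt_ofReal_iff (by positivity)).2 ?_)
  exact Real.rpow_lt_rpow_of_exponent_lt one_lt_two (by linarith [le_max_right α₁ 1])

theorem three (x y z : ℂ) : ‖x + y + z‖ ^ 2 ≤ 3 * (‖x‖ ^ 2 + ‖y‖ ^ 2 + ‖z‖ ^ 2) := by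
  have h := pow_le_pow_left₀ (norm_nonneg _) (norm_add₃_le (a := x) (b := y) (c := z)) 2
  nlinarith [sq_nonneg (‖x‖ - ‖y‖), sq_nonneg (‖y‖ - ‖z‖), sq_nonneg (‖x‖ - ‖z‖)]

/-- Early blow-up charges every ball of `H^s` below the critical exponent. -/
theorem charge (hm : 1 ≤ m) (h : Bub d m K) (hd : d ≤ K) (hα : (K : ℝ) + 1 + d < α)
    (hg : Gauss P g) (hk : Adm d k α) {s ε T : ℝ} (hs0 : 0 ≤ s) (hs : s < scr d (2 * m + 1))
    (hε : 0 < ε) (hT : 0 < T) {v : Tor d → ℂ} (hv : Integrable v (vol d)) (hvs : Hs s v < ⊤) :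
    ∃ E : Set Ω, MeasurableSet E ∧ 0 < P E ∧ ∀ o ∈ E, ∃ f, Datum g α k o f ∧
      Hs s (⇑f - v) < ENNReal.ofReal ε ∧ life (2 * m + 1) k f ≤ ENNReal.ofReal T := by
  classical
  obtain ⟨δ, lam₀, M, R, hδ, h0, h1, hM, hR, H⟩ := h
  have := hg.1
  have hm0 : (0 : ℝ) < (m : ℝ)⁻¹ := by positivity
  have hd0 : (0 : ℝ) ≤ d := Nat.cast_nonneg d
  have hdK : (d : ℝ) ≤ K := by exact_mod_cast hd
  rw [scr_eq] at hs
  have v1 := Hs_lt_top.1 hvs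
  obtain ⟨S₀, v2⟩ := (Prob.tail_small v1 (show 0 < ε / 9 by positivity)).exists
  obtain ⟨φ, hφ⟩ : ∃ φ : Lat d → ℂ, φ = fun n => if n ∈ S₀ then hat v n else 0 := ⟨_, rfl⟩
  have v3 : ∀ n ∉ S₀, φ n = 0 := fun n hn => by simp [hφ, hn]
  have v4 : ∀ n, (if n ∈ S₀ then 0 else (1 + nsq n) ^ s * ‖hat v n‖ ^ 2) =
      (1 + nsq n) ^ s * ‖φ n - hat v n‖ ^ 2 := fun n => by
    by_cases hn : n ∈ S₀ <;> simp [hφ, hn]
  have v5 := Prob.summable_tail (term_nonneg s _) v1 S₀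
  simp only [v4] at v2 v5
  obtain ⟨lam, a0, a1, a2, -, a3, a4⟩ := small (a := (d : ℝ) - 2 * (m : ℝ)⁻¹ - 2 * s) (C' := 0)
    (C := (3 * R) ^ d * ((1 + d) * R ^ 2) ^ s * M ^ 2) (X := 1 + ∑' n, W K n * ‖φ n‖)
    (by linarith) one_pos hm0 (show 0 < ε / 9 by positivity) hδ hT h0
  obtain ⟨ψ, b1, b2, b3⟩ := H lam a0 a1
  obtain ⟨S, c1, -, c3⟩ := bubble_norm hM hR a0 (a1.trans h1) b1 b2
  obtain ⟨η, n0, n1, n2, -⟩ := small (C := (1 + d) ^ K) (C' := 0) (X := 0) two_pos one_pos one_pos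
    (show 0 < ε / 9 by positivity) one_pos one_pos one_pos
  rw [Real.rpow_two] at n2
  have p1 := (W_add (k := K) (fin_sum1 v3 _) (fin_sum1 c1 _)).1
  obtain ⟨E, e1, e2, e3⟩ := ball_pos P g hg.2.1 hg.2.2.1 hg.law hα _ p1 n0
  obtain ⟨E', f1, f2, f3⟩ := cut hg hk e1
  refine ⟨E', f1, f2 ▸ e2, fun o ho => ?_⟩
  obtain ⟨g1, f, hf⟩ := f3 o ho
  obtain ⟨g2, g3⟩ := e3 o g1
  have g4 : Summable fun n => W K n * ‖datum g α o n - (φ n + ψ n)‖ := by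
    simpa only [sub_eq_add_neg] using
      (W_add (b := fun n => -(φ n + ψ n)) (W_down g2).1 (by simpa only [norm_neg] using p1)).1
  refine ⟨f, hf, ?_, (life_le hk.1 f).trans ?_⟩
  · obtain ⟨q1, q2⟩ := sob_of_wiener (s := s) (by linarith) g4 g3.le
    have q3 := fin_sum c1 (fun n => (1 + nsq n) ^ s) two_ne_zero
    have q4 : ∀ n, (1 + nsq n) ^ s * ‖hat (⇑f - v) n‖ ^ 2 ≤
        3 * ((1 + nsq n) ^ s * ‖datum g α o n - (φ n + ψ n)‖ ^ 2 + (1 + nsq n) ^ s * ‖ψ n‖ ^ 2 +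
          (1 + nsq n) ^ s * ‖φ n - hat v n‖ ^ 2) := fun n => by
      have r1 := three (datum g α o n - (φ n + ψ n)) (ψ n) (φ n - hat v n)
      have r2 := sq_nonneg' n
      rw [hat_sub (int_fn f) hv, hf.hat_eq, ← mul_add, ← mul_add, mul_left_comm,
        show datum g α o n - hat v n = datum g α o n - (φ n + ψ n) + ψ n + (φ n - hat v n) by ring]
      gcongr
    have q5 := ((q1.add q3.summable).add v5).mul_left 3
    have q6 := Summable.of_nonneg_of_le (term_nonneg s _) q4 q5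
    have q7 := q6.tsum_le_tsum q4 q5
    rw [tsum_mul_left, (q1.add q3.summable).tsum_add v5, q1.tsum_add q3.summable, q3.tsum_eq] at q7
    rw [Hs_eq q6, ENNReal.ofReal_lt_ofReal_iff hε]
    linarith [c3 s hs0]
  · rw [hf.hat_eq]
    refine (b3 _ g2 ?_ k hk.1).trans (ENNReal.ofReal_le_ofReal a4)
    have q1 := (W_add g4 (fin_sum1 v3 _)).2
    simp only [show ∀ n, datum g α o n - (φ n + ψ n) + φ n = datum g α o n - ψ n from
      fun n => by ring] at q1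
    linarith

end Vale.Agent.N139X
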